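import Vale.Agent.P355.H790.Br4
import Vale.Agent.P355.H693W.Fin4

/-! Bridge modules for closed classes with four rows and four columns, end step with two lists. -/

namespace Vale.Agent.P355.H790.Br4

open Finset Vale.Agent.P355 Vale.Agent.P355.H138 Vale.Agent.P355.H387 Vale.Agent.P355.H693.Inj

set_option linter.unusedSectionVars false
set_option linter.unusedSimpArgs false

variable {F : Bool → Mt → ℝ} {R : Bool → (Option (Fin 4) → Option (Fin 4) → ℤ) → ℝ}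

/-- one bridge record: `[0,14)` closed id, `[14]` sign, `[15,71)` magnitude, then 225 terms. -/
noncomputable def br1 (W : ℕ) (tr : Tr) (ct : CT) (r S : ℕ) (P Q : AT) (Pc Qc Mc : ℕ)
    (k : ℕ → AT → AT → ℕ → ℕ → ℕ → Bool) : Bool :=
  seq (Nat.land r 16383) fun id =>
  seq (Nat.land (Nat.shiftRight r 15) 72057594037927935) fun s =>
  seq (Nat.shiftRight r 71) fun RR =>
  seq (Nat.add S (Nat.add (Nat.mul 46656 s) 225)) fun S' =>
  seq (Nat.add Mc s) fun Mc' =>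
  seq (Nat.shiftLeft s (Nat.mul W id)) fun z =>
  Nat.rec (motive := fun _ => Bool)
    (brc4 tr ct id s RR P fun P' => seq (Nat.add Pc z) fun Pc' => k S' P' Q Pc' Qc Mc')
    (fun _ _ => brc4 tr ct id s RR Q fun Q' => seq (Nat.add Qc z) fun Qc' => k S' P Q' Pc Qc' Mc')
    (Nat.land (Nat.shiftRight r 14) 1)

/-- state of a bridge module. -/
def BI (F : Bool → Mt → ℝ) (R : Bool → (Option (Fin 4) → Option (Fin 4) → ℤ) → ℝ) (W : ℕ) (tr : Tr)
    (ct : CT) (S : ℕ) (P Q : AT) (Pc Qc Mc : ℕ) : Prop :=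
  ∃ V U p q, AF F ct P S V ∧ AF F ct Q S U ∧ H129.NRep W (cvl4 R tr) Pc Mc p ∧
    H129.NRep W (cvl4 R tr) Qc Mc q ∧ V - U = 46656 * (p - q)

theorem br1_sound (hF : Cls F) (hB : Brg4 F R) {W : ℕ} {tr : Tr} {ct : CT} {r S : ℕ} {P Q : AT}
    {Pc Qc Mc : ℕ} (h : BI F R W tr ct S P Q Pc Qc Mc)
    (k : ℕ → AT → AT → ℕ → ℕ → ℕ → Bool) (hk : br1 W tr ct r S P Q Pc Qc Mc k = true) :
    ∃ S' P' Q' Pc' Qc' Mc', BI F R W tr ct S' P' Q' Pc' Qc' Mc' ∧ k S' P' Q' Pc' Qc' Mc' = true := by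
  unfold br1 at hk
  simp only [seq_eq] at hk
  generalize Nat.land r 16383 = id at hk
  generalize Nat.land (Nat.shiftRight r 15) _ = s at hk
  generalize Nat.shiftRight r 71 = RR at hk
  generalize Nat.land (Nat.shiftRight r 14) 1 = sg at hk
  have e1 : Nat.add S (Nat.add (Nat.mul 46656 s) 225) = S + (46656 * s + 225) := rfl
  have e2 : Nat.add Mc s = Mc + s := rfl
  have e3 : Nat.shiftLeft s (Nat.mul W id) = s <<< (W * id) := rfl
  rw [e1, e2, e3] at hk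
  obtain ⟨V, U, p, q, h1, h2, h3, h4, h5⟩ := h
  cases sg with
  | zero =>
    obtain ⟨P', a1, a2⟩ := brc4_sound hF hB h1 _ hk
    refine ⟨_, _, _, _, _, _, ⟨_, _, _, _, a1, h2.mono (by omega), h3.add (H129.NRep.single s id),
      h4.mono (by omega), ?_⟩, a2⟩
    linear_combination h5
  | succ sg =>
    obtain ⟨Q', a1, a2⟩ := brc4_sound hF hB h2 _ hk
    refine ⟨_, _, _, _, _, _, ⟨_, _, _, _, h1.mono (by omega), a1, h3.mono (by omega),
      h4.add (H129.NRep.single s id), ?_⟩, a2⟩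
    linear_combination h5

/-- list of records (one number each). -/
noncomputable def brL (W : ℕ) (tr : Tr) (ct : CT) (L : List ℕ) :
    ℕ → AT → AT → ℕ → ℕ → ℕ → (ℕ → AT → AT → ℕ → ℕ → ℕ → Bool) → Bool :=
  List.rec (motive := fun _ => ℕ → AT → AT → ℕ → ℕ → ℕ →
      (ℕ → AT → AT → ℕ → ℕ → ℕ → Bool) → Bool)
    (fun S P Q Pc Qc Mc k => k S P Q Pc Qc Mc)
    (fun r _ ih S P Q Pc Qc Mc k => br1 W tr ct r S P Q Pc Qc Mc
      fun S' P' Q' Pc' Qc' Mc' => ih S' P' Q' Pc' Qc' Mc' k) L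

theorem brL_sound (hF : Cls F) (hB : Brg4 F R) {W : ℕ} {tr : Tr} {ct : CT}
    (k : ℕ → AT → AT → ℕ → ℕ → ℕ → Bool) (L : List ℕ) :
    ∀ (S : ℕ) (P Q : AT) (Pc Qc Mc : ℕ), BI F R W tr ct S P Q Pc Qc Mc →
    brL W tr ct L S P Q Pc Qc Mc k = true →
    ∃ S' P' Q' Pc' Qc' Mc', BI F R W tr ct S' P' Q' Pc' Qc' Mc' ∧ k S' P' Q' Pc' Qc' Mc' = true := by
  induction L with
  | nil =>
    intro S P Q Pc Qc Mc h hk
    exact ⟨S, P, Q, Pc, Qc, Mc, h, hk⟩
  | cons c L ih =>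
    intro S P Q Pc Qc Mc h hk
    have hstep : brL W tr ct (c :: L) S P Q Pc Qc Mc k = br1 W tr ct c S P Q Pc Qc Mc
      fun S' P' Q' Pc' Qc' Mc' => brL W tr ct L S' P' Q' Pc' Qc' Mc' k := rfl
    rw [hstep] at hk
    obtain ⟨S1, P1, Q1, Pc1, Qc1, Mc1, a1, a2⟩ := br1_sound hF hB h
      (fun S' P' Q' Pc' Qc' Mc' => brL W tr ct L S' P' Q' Pc' Qc' Mc' k) hk
    exact ih _ _ _ _ _ _ a1 a2

/-- **check of a bridge module** (`K = 4`). -/
noncomputable def ckBr4 (W : ℕ) (tr : Tr) (ct : CT) (L : List ℕ) (out : List (ℕ × ℕ))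
    (Pc Qc Mc : ℕ) : Bool :=
  brL W tr ct L 0 (zeroT ct) (zeroT ct) 0 0 0 fun S P Q Pc' Qc' Mc' =>
    loadL out S Q P fun S' Q' P' =>
      cond (Nat.blt S' 9223372036854775808) (cond (eqT P' Q')
        (cond (Nat.beq Pc' Pc) (cond (Nat.beq Qc' Qc) (Nat.ble Mc' Mc) false) false) false) false

theorem ckBr4_sound (hF : Cls F) (hB : Brg4 F R) {W : ℕ} {tr : Tr} {ct : CT} {L : List ℕ}
    {out : List (ℕ × ℕ)} {Pc Qc Mc : ℕ} (h : ckBr4 W tr ct L out Pc Qc Mc = true) :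
    ∃ p q, H129.NRep W (cvl4 R tr) Pc Mc p ∧ H129.NRep W (cvl4 R tr) Qc Mc q ∧
      46656 * (p - q) = evL F ct out := by
  unfold ckBr4 at h
  have h0 : BI F R W tr ct 0 (zeroT ct) (zeroT ct) 0 0 0 :=
    ⟨0, 0, 0, 0, AF.zero ct, AF.zero ct, H129.NRep.zero, H129.NRep.zero, by ring⟩
  obtain ⟨S1, P1, Q1, Pc1, Qc1, Mc1, ⟨V, U, p, q, b1, b2, b3, b4, b5⟩, a2⟩ :=
    brL_sound hF hB _ _ _ _ _ _ _ _ h0 h
  obtain ⟨S2, Q2, P2, U2, V2, c1, c2, c3, c4⟩ := loadL_sound _ _ _ _ _ _ _ b2 b1 a2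
  cases hz : Nat.blt S2 9223372036854775808 with
  | false => rw [hz] at c4; simp at c4
  | true =>
    cases he : eqT P2 Q2 with
    | false => rw [hz, he] at c4; simp at c4
    | true =>
      cases h1 : Nat.beq Pc1 Pc with
      | false => rw [hz, he, h1] at c4; simp at c4
      | true =>
        cases h2 : Nat.beq Qc1 Qc with
        | false => rw [hz, he, h1, h2] at c4; simp at c4
        | true =>
          rw [hz, he, h1, h2] at c4
          simp only [cond_true] at c4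
          have hS : S2 < 2 ^ 63 := by
            rw [Nat.blt_eq] at hz
            norm_num; exact hz
          have := eqT_sound c2 c1 hS hS he
          have hM : Mc1 ≤ Mc := Nat.le_of_ble_eq_true c4
          rw [Nat.eq_of_beq_eq_true h1] at b3
          rw [Nat.eq_of_beq_eq_true h2] at b4
          exact ⟨p, q, b3.mono hM, b4.mono hM, by linarith⟩

/-- **bridge of a module**: the constant is `46656`, as for three vertices. -/
theorem brK_of_ck {x : Fin 7 → Fin 7 → ℂ} {W : ℕ} (hx : Base x) {tr : Tr} {ct : CT} {L : List ℕ}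
    {out : List (ℕ × ℕ)} {P Q M : ℕ}
    (h : ckBr4 W tr ct L out P Q M = true) : H693W.BrK 4 46656 x W tr ct out P Q M := by
  obtain ⟨p, q, h1, h2, h3⟩ := ckBr4_sound (cls_riv hx) (brg4_riv hx) h
  exact ⟨p, q, h1, h2, h3⟩

end Vale.Agent.P355.H790.Br4

namespace Vale.Agent.P355.H790

open Finset Matrix Vale.Agent.P355 Vale.Agent.P355.H129
open Vale.Agent.P355.H138 (Tr BrP RwP vl)
open Vale.Agent.P355.H138 (Base)
open Vale.Agent.P355.H387 (evL ckFin CT)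
open Vale.Agent.P355.H693.Inj (riv)
open Vale.Agent.P355.H693W (BrK isOne isOne_spec oneL evL_oneL V_T2)

set_option linter.unusedSectionVars false
set_option linter.unusedSimpArgs false

variable {W W4 : ℕ}

/-- **Positivity of two lists of codes** (three and four vertices), the same constant `46656` for
both bridges. -/
theorem lval_posI2 {x : Fin 7 → Fin 7 → ℂ} (hx : Base x) {tr tr4 : Tr} {ct : CT}
    {l l4 : List (ℤ × Bool × ℤ)} {ids ids4 : List ℕ} {PT QT MT MT' M PT4 QT4 MT4 MT4' M4 : ℕ}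
    (hpk : pk W tr l ids = some ((PT, MT), (QT, MT')))
    (hpk4 : pk W4 tr4 l4 ids4 = some ((PT4, MT4), (QT4, MT4')))
    {oT oT4 oS oR : List (ℕ × ℕ)} (hT : BrP x W tr ct oT PT QT M)
    (hT4 : BrK 4 46656 x W4 tr4 ct oT4 PT4 QT4 M4) (hS : 0 ≤ evL (riv x) ct oS)
    (hR : RwP x ct oR) {e E : ℕ} (hM : MT < 2 ^ W) (hM' : MT' < 2 ^ W)
    (hM'' : M < 2 ^ W) (hM4 : MT4 < 2 ^ W4) (hM4' : MT4' < 2 ^ W4) (hM4'' : M4 < 2 ^ W4)
    (h1 : isOne ct e = true) (he : Nat.land e 1208925819614629174706175 = e)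
    (hF : ckFin ct (oT ++ oT4) (oS ++ (oR ++ oneL e)) E = true)
    (hμ : 5 * E < 2 * Nat.shiftRight e 19) : 0 < lval 3 x l + lval 4 x l4 := by
  obtain ⟨p, q, hp, hq, hpq⟩ := pk_sound (W := W) (K := 3) (x := x) l ids PT MT QT MT' hpk
  obtain ⟨u, v, hu, hv, huv⟩ := pk_sound (W := W4) (K := 4) (x := x) l4 ids4 PT4 MT4 QT4 MT4' hpk4
  obtain ⟨p', q', hp', hq', hpq'⟩ := hT
  obtain ⟨u', v', hu', hv', huv'⟩ := hT4
  have e1 := hp.unique hp' hM hM''
  have e2 := hq.unique hq' hM' hM''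
  have e3 := hu.unique hu' hM4 hM4''
  have e4 := hv.unique hv' hM4' hM4''
  have h4 := H387.ckFin_sound (F := riv x) (c := 5 / 2) (by norm_num)
    (fun b M => H693.Inj.abs_riv_le hx b M) hF
  rw [H387.evL_append, H387.evL_append, H387.evL_append, evL_oneL he, isOne_spec h1] at h4
  unfold RwP at hR
  have h5 : (5 : ℝ) * E < 2 * ((Nat.shiftRight e 19 : ℕ) : ℝ) := by exact_mod_cast hμ
  have h6 := (abs_le.1 h4).1
  rw [hR, ← hpq', ← huv', ← e1, ← e2, ← e3, ← e4] at h6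
  have e5 : (46656 : ℝ) * (p - q) + 46656 * (u - v) = 46656 * (lval 3 x l + lval 4 x l4) := by
    rw [← hpq, ← huv]; ring
  rw [e5] at h6
  by_contra hcon
  have h7 : lval 3 x l + lval 4 x l4 ≤ 0 := not_lt.1 hcon
  linarith

/-- **Inequality of the coloured level** by the injective route, two lists, constant `46656`. -/
theorem VI2_packed {m N c : ℕ} {B : Fin m → M6} (hB : IsMUBs B) (hc : 3 ≤ c) {ctG : H693.GT}
    {L L4 : List H693.VR} (hL : (L.all fun r => r.ok N c 3 (H693.tabG ctG) 6 0) = true)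
    (hL4 : (L4.all fun r => r.ok N c 4 (H693.tabG ctG) 6 0) = true)
    {l l4 : List (ℤ × Bool × ℤ)} (hl : L.map H693.VR.term = l) (hl4 : L4.map H693.VR.term = l4)
    {tr tr4 : Tr} {ct : CT}
    {ids ids4 : List ℕ} {PT QT MT MT' M PT4 QT4 MT4 MT4' M4 : ℕ}
    (hpk : pk W tr l ids = some ((PT, MT), (QT, MT')))
    (hpk4 : pk W4 tr4 l4 ids4 = some ((PT4, MT4), (QT4, MT4')))
    {oT oT4 oS oR : List (ℕ × ℕ)}
    (hT : ∀ x, H138.Good false x → H182.N7x x → BrP x W tr ct oT PT QT M)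
    (hT4 : ∀ x, H138.Good false x → H182.N7x x → BrK 4 46656 x W4 tr4 ct oT4 PT4 QT4 M4)
    (hS : ∀ x, H138.Good false x → H182.N7x x → 0 ≤ evL (riv x) ct oS)
    (hR : ∀ x, H138.Good false x → H182.N7x x → RwP x ct oR)
    {e E : ℕ} (hM : MT < 2 ^ W) (hM' : MT' < 2 ^ W)
    (hM'' : M < 2 ^ W) (hM4 : MT4 < 2 ^ W4) (hM4' : MT4' < 2 ^ W4) (hM4'' : M4 < 2 ^ W4)
    (h1 : isOne ct e = true) (he : Nat.land e 1208925819614629174706175 = e)
    (hF : ckFin ct (oT ++ oT4) (oS ++ (oR ++ oneL e)) E = true)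
    (hμ : 5 * E < 2 * Nat.shiftRight e 19) :
    0 ≤ H693.valT (H147.cv B N c) ctG (L.map H693.VR.ct ++ L4.map H693.VR.ct) :=
  V_T2 hB hc hL hL4 fun x hx hN => by
    rw [hl, hl4]
    exact (lval_posI2 hx.1 hpk hpk4 (hT x hx hN) (hT4 x hx hN) (hS x hx hN) (hR x hx hN) hM hM'
      hM'' hM4 hM4' hM4'' h1 he hF hμ).le

end Vale.Agent.P355.H790
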