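import Vale.Agent.P355.H790.Br4F

/-! End step with two lists of codes (three and four vertices on a side), constant `46656` for
both bridges; the residual bound is a hypothesis (to be split over several modules). -/

namespace Vale.Agent.P355.H790

open Finset Matrix Vale.Agent.P355 Vale.Agent.P355.H129
open Vale.Agent.P355.H138 (Tr BrP RwP vl)
open Vale.Agent.P355.H138 (Base)
open Vale.Agent.P355.H387 (evL ckFin CT)
open Vale.Agent.P355.H693.Inj (riv)
open Vale.Agent.P355.H693W (BrK isOne isOne_spec oneL evL_oneL V_T2)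

set_option linter.unusedSectionVars false
set_option linter.unusedSimpArgs false

variable {W W4 : ℕ}

/-- positivity of two lists, the residual as a hypothesis. -/
theorem lval_posI2R {x : Fin 7 → Fin 7 → ℂ} {tr tr4 : Tr} {ct : CT}
    {l l4 : List (ℤ × Bool × ℤ)} {ids ids4 : List ℕ} {PT QT MT MT' M PT4 QT4 MT4 MT4' M4 : ℕ}
    (hpk : pk W tr l ids = some ((PT, MT), (QT, MT')))
    (hpk4 : pk W4 tr4 l4 ids4 = some ((PT4, MT4), (QT4, MT4')))
    {oT oT4 oS oR : List (ℕ × ℕ)} (hT : BrP x W tr ct oT PT QT M)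
    (hT4 : BrK 4 46656 x W4 tr4 ct oT4 PT4 QT4 M4) (hS : 0 ≤ evL (riv x) ct oS)
    (hR : RwP x ct oR) {e E : ℕ} (hM : MT < 2 ^ W) (hM' : MT' < 2 ^ W)
    (hM'' : M < 2 ^ W) (hM4 : MT4 < 2 ^ W4) (hM4' : MT4' < 2 ^ W4) (hM4'' : M4 < 2 ^ W4)
    (h1 : isOne ct e = true) (he : Nat.land e 1208925819614629174706175 = e)
    (hF : |evL (riv x) ct (oT ++ oT4) - evL (riv x) ct (oS ++ (oR ++ oneL e))| ≤ 5 / 2 * (E : ℝ))
    (hμ : 5 * E < 2 * Nat.shiftRight e 19) : 0 < lval 3 x l + lval 4 x l4 := by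
  obtain ⟨p, q, hp, hq, hpq⟩ := pk_sound (W := W) (K := 3) (x := x) l ids PT MT QT MT' hpk
  obtain ⟨u, v, hu, hv, huv⟩ := pk_sound (W := W4) (K := 4) (x := x) l4 ids4 PT4 MT4 QT4 MT4' hpk4
  obtain ⟨p', q', hp', hq', hpq'⟩ := hT
  obtain ⟨u', v', hu', hv', huv'⟩ := hT4
  have e1 := hp.unique hp' hM hM''
  have e2 := hq.unique hq' hM' hM''
  have e3 := hu.unique hu' hM4 hM4''
  have e4 := hv.unique hv' hM4' hM4''
  have h4 := hF
  rw [H387.evL_append, H387.evL_append, H387.evL_append, evL_oneL he, isOne_spec h1] at h4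
  unfold RwP at hR
  have h5 : (5 : ℝ) * E < 2 * ((Nat.shiftRight e 19 : ℕ) : ℝ) := by exact_mod_cast hμ
  have h6 := (abs_le.1 h4).1
  rw [hR, ← hpq', ← huv', ← e1, ← e2, ← e3, ← e4] at h6
  have e5 : (46656 : ℝ) * (p - q) + 46656 * (u - v) = 46656 * (lval 3 x l + lval 4 x l4) := by
    rw [← hpq, ← huv]; ring
  rw [e5] at h6
  by_contra hcon
  have h7 : lval 3 x l + lval 4 x l4 ≤ 0 := not_lt.1 hcon
  linarith

/-- **Inequality of the coloured level** by the injective route, two lists, residual as a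
hypothesis. -/
theorem VI2_packedR {m N c : ℕ} {B : Fin m → M6} (hB : IsMUBs B) (hc : 3 ≤ c) {ctG : H693.GT}
    {L L4 : List H693.VR} (hL : (L.all fun r => r.ok N c 3 (H693.tabG ctG) 6 0) = true)
    (hL4 : (L4.all fun r => r.ok N c 4 (H693.tabG ctG) 6 0) = true)
    {l l4 : List (ℤ × Bool × ℤ)} (hl : L.map H693.VR.term = l) (hl4 : L4.map H693.VR.term = l4)
    {tr tr4 : Tr} {ct : CT}
    {ids ids4 : List ℕ} {PT QT MT MT' M PT4 QT4 MT4 MT4' M4 : ℕ}
    (hpk : pk W tr l ids = some ((PT, MT), (QT, MT')))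
    (hpk4 : pk W4 tr4 l4 ids4 = some ((PT4, MT4), (QT4, MT4')))
    {oT oT4 oS oR : List (ℕ × ℕ)}
    (hT : ∀ x, H138.Good false x → H182.N7x x → BrP x W tr ct oT PT QT M)
    (hT4 : ∀ x, H138.Good false x → H182.N7x x → BrK 4 46656 x W4 tr4 ct oT4 PT4 QT4 M4)
    (hS : ∀ x, H138.Good false x → H182.N7x x → 0 ≤ evL (riv x) ct oS)
    (hR : ∀ x, H138.Good false x → H182.N7x x → RwP x ct oR)
    {e E : ℕ} (hM : MT < 2 ^ W) (hM' : MT' < 2 ^ W)
    (hM'' : M < 2 ^ W) (hM4 : MT4 < 2 ^ W4) (hM4' : MT4' < 2 ^ W4) (hM4'' : M4 < 2 ^ W4)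
    (h1 : isOne ct e = true) (he : Nat.land e 1208925819614629174706175 = e)
    (hF : ∀ x, H138.Good false x → H182.N7x x →
      |evL (riv x) ct (oT ++ oT4) - evL (riv x) ct (oS ++ (oR ++ oneL e))| ≤ 5 / 2 * (E : ℝ))
    (hμ : 5 * E < 2 * Nat.shiftRight e 19) :
    0 ≤ H693.valT (H147.cv B N c) ctG (L.map H693.VR.ct ++ L4.map H693.VR.ct) :=
  V_T2 hB hc hL hL4 fun x hx hN => by
    rw [hl, hl4]
    exact (lval_posI2R hpk hpk4 (hT x hx hN) (hT4 x hx hN) (hS x hx hN) (hR x hx hN) hM hM'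
      hM'' hM4 hM4' hM4'' h1 he (hF x hx hN) hμ).le

end Vale.Agent.P355.H790
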