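import Vale.Agent.P355.H693.InjBridge

/-! Graph functions with four vertices on each side in terms of injective classes. -/

namespace Vale.Agent.P355.H790.Br4

open Finset Vale.Agent.P355 Vale.Agent.P355.H138 Vale.Agent.P355.H693.Inj

set_option linter.unusedSectionVars false
set_option linter.unusedSimpArgs false

variable {x : Fin 7 → Fin 7 → ℂ}

/-- append a value. -/
def sn (φ : Fin 3 → Fin 6) (l : Fin 6) : Fin 4 → Fin 6 := ![φ 0, φ 1, φ 2, l]

/-- sums over all maps from four points, for symmetric functions. -/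
theorem sum4 (G : (Fin 4 → Fin 6) → ℂ) (hG : ∀ (σ : Pm) (φ : Fin 4 → Fin 6), G (σ ∘ φ) = G φ) :
    ∑ φ : Fin 4 → Fin 6, G φ =
      360 * G ![0, 1, 2, 3] + 120 * G ![0, 1, 2, 0] + 120 * G ![0, 1, 2, 1] + 120 * G ![0, 1, 2, 2]
      + 120 * G ![0, 0, 1, 2] + 30 * G ![0, 0, 1, 0] + 30 * G ![0, 0, 1, 1]
      + 120 * G ![0, 1, 0, 2] + 30 * G ![0, 1, 0, 0] + 30 * G ![0, 1, 0, 1]
      + 120 * G ![0, 1, 1, 2] + 30 * G ![0, 1, 1, 0] + 30 * G ![0, 1, 1, 1]
      + 30 * G ![0, 0, 0, 1] + 6 * G ![0, 0, 0, 0] := by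
  have hs : ∀ (a b : Fin 6) (φ ψ : Fin 4 → Fin 6), (∀ i, Equiv.swap a b (φ i) = ψ i) →
      G φ = G ψ := by
    intro a b φ ψ hh
    rw [← hG (Equiv.swap a b) φ]
    congr 1; funext i; exact hh i
  have h1 : ∑ φ : Fin 4 → Fin 6, G φ = ∑ φ : Fin 3 → Fin 6, ∑ l : Fin 6, G (sn φ l) := by
    rw [← Fintype.sum_prod_type' (f := fun (φ : Fin 3 → Fin 6) (l : Fin 6) => G (sn φ l))]
    refine Fintype.sum_equiv ⟨fun φ => (![φ 0, φ 1, φ 2], φ 3), fun p => sn p.1 p.2,
      fun φ => ?_, fun p => ?_⟩ _ _ fun φ => ?_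
    · funext i; fin_cases i <;> rfl
    · refine Prod.ext ?_ rfl
      funext i; fin_cases i <;> rfl
    · congr 1; funext i; fin_cases i <;> rfl
  rw [h1, sum3 (fun φ => ∑ l : Fin 6, G (sn φ l)) (by
    intro σ φ
    have e : ∀ l, G (sn (σ ∘ φ) l) = G (sn φ (σ⁻¹ l)) := by
      intro l
      rw [← hG σ (sn φ (σ⁻¹ l))]
      congr 1
      funext i
      fin_cases i <;> simp [sn]
    simp only [e]
    exact Fintype.sum_equiv (σ⁻¹ : Pm) _ _ fun l => rfl)]
  have k3 : ∀ l : Fin 6, l ≠ 0 → l ≠ 1 → l ≠ 2 → G ![0, 1, 2, l] = G ![0, 1, 2, 3] := by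
    intro l h0 h1 h2
    refine hs 3 l _ _ fun t => ?_
    fin_cases t
    · exact Equiv.swap_apply_of_ne_of_ne (show (0 : Fin 6) ≠ 3 by decide) (Ne.symm h0)
    · exact Equiv.swap_apply_of_ne_of_ne (show (1 : Fin 6) ≠ 3 by decide) (Ne.symm h1)
    · exact Equiv.swap_apply_of_ne_of_ne (show (2 : Fin 6) ≠ 3 by decide) (Ne.symm h2)
    · simp
  have k2 : ∀ (a b c : Fin 6), (a = 0 ∨ a = 1) → (b = 0 ∨ b = 1) → (c = 0 ∨ c = 1) →
      ∀ l : Fin 6, l ≠ 0 → l ≠ 1 → G ![a, b, c, l] = G ![a, b, c, 2] := by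
    intro a b c ha hb hc l h0 h1
    have hh : ∀ d : Fin 6, (d = 0 ∨ d = 1) → Equiv.swap 2 l d = d := by
      intro d hd
      rcases hd with rfl | rfl
      · exact Equiv.swap_apply_of_ne_of_ne (by decide) (Ne.symm h0)
      · exact Equiv.swap_apply_of_ne_of_ne (by decide) (Ne.symm h1)
    refine hs 2 l _ _ fun t => ?_
    fin_cases t
    · exact hh a ha
    · exact hh b hb
    · exact hh c hc
    · simp
  have k1 : ∀ l : Fin 6, l ≠ 0 → G ![0, 0, 0, l] = G ![0, 0, 0, 1] := by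
    intro l h0
    refine hs 1 l _ _ fun t => ?_
    fin_cases t
    · exact Equiv.swap_apply_of_ne_of_ne (show (0 : Fin 6) ≠ 1 by decide) (Ne.symm h0)
    · exact Equiv.swap_apply_of_ne_of_ne (show (0 : Fin 6) ≠ 1 by decide) (Ne.symm h0)
    · exact Equiv.swap_apply_of_ne_of_ne (show (0 : Fin 6) ≠ 1 by decide) (Ne.symm h0)
    · simp
  have v1 : ∀ l, sn ![0, 1, 2] l = ![0, 1, 2, l] := fun l => by
    funext i; fin_cases i <;> rfl
  have v2 : ∀ l, sn ![0, 0, 1] l = ![0, 0, 1, l] := fun l => by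
    funext i; fin_cases i <;> rfl
  have v3 : ∀ l, sn ![0, 1, 0] l = ![0, 1, 0, l] := fun l => by
    funext i; fin_cases i <;> rfl
  have v4 : ∀ l, sn ![0, 1, 1] l = ![0, 1, 1, l] := fun l => by
    funext i; fin_cases i <;> rfl
  have v5 : ∀ l, sn ![0, 0, 0] l = ![0, 0, 0, l] := fun l => by
    funext i; fin_cases i <;> rfl
  simp only [v1, v2, v3, v4, v5, Fin.sum_univ_six]
  rw [k3 4 (by decide) (by decide) (by decide), k3 5 (by decide) (by decide) (by decide),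
    k2 0 0 1 (by decide) (by decide) (by decide) 3 (by decide) (by decide),
    k2 0 0 1 (by decide) (by decide) (by decide) 4 (by decide) (by decide),
    k2 0 0 1 (by decide) (by decide) (by decide) 5 (by decide) (by decide),
    k2 0 1 0 (by decide) (by decide) (by decide) 3 (by decide) (by decide),
    k2 0 1 0 (by decide) (by decide) (by decide) 4 (by decide) (by decide),
    k2 0 1 0 (by decide) (by decide) (by decide) 5 (by decide) (by decide),
    k2 0 1 1 (by decide) (by decide) (by decide) 3 (by decide) (by decide),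
    k2 0 1 1 (by decide) (by decide) (by decide) 4 (by decide) (by decide),
    k2 0 1 1 (by decide) (by decide) (by decide) 5 (by decide) (by decide),
    k1 2 (by decide), k1 3 (by decide), k1 4 (by decide), k1 5 (by decide)]
  ring

/-- the fifteen maps and their weights (divided by `6`). -/
def reps4 : List (ℕ × (Fin 4 → Fin 6)) :=
  [(60, ![0, 1, 2, 3]), (20, ![0, 1, 2, 0]), (20, ![0, 1, 2, 1]), (20, ![0, 1, 2, 2]),
   (20, ![0, 0, 1, 2]), (5, ![0, 0, 1, 0]), (5, ![0, 0, 1, 1]),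
   (20, ![0, 1, 0, 2]), (5, ![0, 1, 0, 0]), (5, ![0, 1, 0, 1]),
   (20, ![0, 1, 1, 2]), (5, ![0, 1, 1, 0]), (5, ![0, 1, 1, 1]),
   (5, ![0, 0, 0, 1]), (1, ![0, 0, 0, 0])]

/-- weighted sum over the fifteen maps. -/
noncomputable def rsum (G : (Fin 4 → Fin 6) → ℂ) : ℂ := (reps4.map fun r => (r.1 : ℂ) * G r.2).sum

theorem rsum_eq (G : (Fin 4 → Fin 6) → ℂ) (hG : ∀ (σ : Pm) (φ : Fin 4 → Fin 6), G (σ ∘ φ) = G φ) :
    ∑ φ : Fin 4 → Fin 6, G φ = 6 * rsum G := by
  rw [sum4 G hG]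
  unfold rsum
  simp only [reps4, List.map_cons, List.map_nil, List.sum_cons, List.sum_nil]
  push_cast; ring

theorem rsum_congr {G G' : (Fin 4 → Fin 6) → ℂ} (h : ∀ φ, G φ = G' φ) : rsum G = rsum G' := by
  rw [show G = G' from funext h]

theorem rsum_inv (n : Option (Fin 4) → Option (Fin 4) → ℤ) (σ : Pm) (φ : Fin 4 → Fin 6) :
    (rsum fun ψ => iv x (push (σ ∘ φ) ψ n)) = rsum fun ψ => iv x (push φ ψ n) :=
  rsum_congr fun ψ => push_perm σ 1 φ ψ n

theorem sum_iv (n : Option (Fin 4) → Option (Fin 4) → ℤ) :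
    ∑ φ : Fin 4 → Fin 6, ∑ ψ : Fin 4 → Fin 6, iv x (push φ ψ n)
      = 36 * rsum fun φ => rsum fun ψ => iv x (push φ ψ n) := by
  have h1 : ∀ φ : Fin 4 → Fin 6, ∑ ψ : Fin 4 → Fin 6, iv x (push φ ψ n)
      = 6 * rsum fun ψ => iv x (push φ ψ n) := fun φ =>
    rsum_eq (fun ψ => iv x (push φ ψ n)) fun τ ψ => push_perm 1 τ φ ψ n
  rw [Finset.sum_congr rfl fun φ _ => h1 φ, ← Finset.mul_sum,
    rsum_eq (fun φ => rsum fun ψ => iv x (push φ ψ n)) fun σ φ => rsum_inv n σ φ]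
  ring

/-- **Bridge.** -/
theorem gv_iv4 (h : Base x) (n : Option (Fin 4) → Option (Fin 4) → ℤ) :
    46656 * gv x n = rsum fun φ => rsum fun ψ => iv x (push φ ψ n) := by
  rw [gv_push h, sum_iv, Fintype.card_fin]
  ring

/-- real form. -/
theorem gv_iv4_re (h : Base x) (n : Option (Fin 4) → Option (Fin 4) → ℤ) :
    46656 * (gv x n).re = (reps4.map fun r => (r.1 : ℝ) *
      (reps4.map fun s => (s.1 : ℝ) * (iv x (push r.2 s.2 n)).re).sum).sum := by
  have h1 := congrArg Complex.re (gv_iv4 h n)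
  have h2 : ((46656 : ℂ) * gv x n).re = 46656 * (gv x n).re := by
    rw [show (46656 : ℂ) = ((46656 : ℝ) : ℂ) by norm_num, Complex.re_ofReal_mul]
  rw [h2] at h1
  rw [h1]
  have h3 : ∀ (L : List (ℕ × (Fin 4 → Fin 6))) (f : (Fin 4 → Fin 6) → ℂ),
      ((L.map fun r => (r.1 : ℂ) * f r.2).sum).re = (L.map fun r => (r.1 : ℝ) * (f r.2).re).sum := by
    intro L f
    induction L with
    | nil => simp
    | cons r L ih =>
      rw [List.map_cons, List.sum_cons, Complex.add_re, ih, List.map_cons, List.sum_cons]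
      congr 1
      rw [show (r.1 : ℂ) = ((r.1 : ℝ) : ℂ) by push_cast; rfl, Complex.re_ofReal_mul]
  have h4 : ∀ φ : Fin 4 → Fin 6, (rsum fun ψ => iv x (push φ ψ n)).re
      = (reps4.map fun s => (s.1 : ℝ) * (iv x (push φ s.2 n)).re).sum := fun φ =>
    h3 reps4 fun ψ => iv x (push φ ψ n)
  have h5 : (rsum fun φ => rsum fun ψ => iv x (push φ ψ n)).re
      = (reps4.map fun r => (r.1 : ℝ) * (rsum fun ψ => iv x (push r.2 ψ n)).re).sum :=
    h3 reps4 fun φ => rsum fun ψ => iv x (push φ ψ n)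
  rw [h5]
  simp only [h4]

end Vale.Agent.P355.H790.Br4
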