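import Vale.Agent.P355.H790.RProj

/-! Flags with several legs: ket legs, bra legs and legs in the complement `E` of the diagonal
algebras.  The end points of the legs are arbitrary vectors of `ℂ⁶` (so that two legs may also be
joined directly). -/

namespace Vale.Agent.P355.H790

open Finset Matrix Vale.Agent.P355 Vale.Agent.P355.H349

/-! ### Gram kernels -/

/-- `K s t = ⟨φ s, φ t⟩` for some map `φ` to a finite dimensional space. -/
def GramK {S : Type*} (K : S → S → ℂ) : Prop :=
  ∃ (N : ℕ) (φ : Fin N → S → ℂ), ∀ s t, K s t = ∑ k, star (φ k s) * φ k t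

section kernel

variable {S S' : Type*} {K L : S → S → ℂ}

theorem GramK.of_fintype {κ : Type*} [Fintype κ] (φ : κ → S → ℂ)
    (h : ∀ s t, K s t = ∑ k, star (φ k s) * φ k t) : GramK K := by
  refine ⟨Fintype.card κ, fun k s => φ ((Fintype.equivFin κ).symm k) s, fun s t => ?_⟩
  rw [h, ← (Fintype.equivFin κ).symm.sum_comp]

theorem GramK.congr (hK : GramK K) (h : ∀ s t, L s t = K s t) : GramK L := by
  obtain ⟨N, φ, hφ⟩ := hK
  exact ⟨N, φ, fun s t => by rw [h, hφ]⟩

theorem GramK.comp (hK : GramK K) (f : S' → S) : GramK fun s t => K (f s) (f t) := by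
  obtain ⟨N, φ, hφ⟩ := hK
  exact ⟨N, fun k s => φ k (f s), fun s t => hφ _ _⟩

theorem GramK.one : GramK fun _ _ : S => (1 : ℂ) :=
  ⟨1, fun _ _ => 1, fun s t => by simp⟩

theorem GramK.mul (hK : GramK K) (hL : GramK L) : GramK fun s t => K s t * L s t := by
  obtain ⟨N, φ, hφ⟩ := hK
  obtain ⟨M, ψ, hψ⟩ := hL
  refine GramK.of_fintype (κ := Fin N × Fin M) (fun k s => φ k.1 s * ψ k.2 s) fun s t => ?_
  rw [hφ, hψ, Finset.sum_mul_sum, Fintype.sum_prod_type]
  exact Finset.sum_congr rfl fun i _ => Finset.sum_congr rfl fun j _ => by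
    rw [star_mul']; ring

theorem GramK.add (hK : GramK K) (hL : GramK L) : GramK fun s t => K s t + L s t := by
  obtain ⟨N, φ, hφ⟩ := hK
  obtain ⟨M, ψ, hψ⟩ := hL
  refine GramK.of_fintype (κ := Fin N ⊕ Fin M) (fun k s => Sum.elim (fun i => φ i s)
    (fun j => ψ j s) k) fun s t => ?_
  rw [hφ, hψ, Fintype.sum_sum_type]
  rfl

/-- multiplying by a function. -/
theorem GramK.scale (hK : GramK K) (c : S → ℂ) : GramK fun s t => star (c s) * c t * K s t := by
  obtain ⟨N, φ, hφ⟩ := hK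
  refine ⟨N, fun k s => c s * φ k s, fun s t => ?_⟩
  dsimp only
  rw [hφ, Finset.mul_sum]
  exact Finset.sum_congr rfl fun i _ => by rw [star_mul']; ring

/-- multiplying by a nonnegative constant. -/
theorem GramK.smul (hK : GramK K) {a : ℝ} (ha : 0 ≤ a) : GramK fun s t => (a : ℂ) * K s t := by
  refine (hK.scale fun _ => ((Real.sqrt a : ℝ) : ℂ)).congr fun s t => ?_
  have h : star ((Real.sqrt a : ℝ) : ℂ) * ((Real.sqrt a : ℝ) : ℂ) = (a : ℂ) := by
    rw [show star ((Real.sqrt a : ℝ) : ℂ) = ((Real.sqrt a : ℝ) : ℂ) from Complex.conj_ofReal _,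
      ← Complex.ofReal_mul, Real.mul_self_sqrt ha]
  rw [h]

/-- the transposed kernel. -/
theorem GramK.swap (hK : GramK K) : GramK fun s t => K t s := by
  obtain ⟨N, φ, hφ⟩ := hK
  refine ⟨N, fun k s => star (φ k s), fun s t => ?_⟩
  dsimp only
  rw [hφ]
  exact Finset.sum_congr rfl fun i _ => by rw [star_star]; ring

theorem GramK.herm (hK : GramK K) (s t : S) : star (K s t) = K t s := by
  obtain ⟨N, φ, hφ⟩ := hK
  rw [hφ, hφ, star_sum]
  exact Finset.sum_congr rfl fun i _ => by rw [star_mul', star_star]; ring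

theorem GramK.prod {p : ℕ} (K : Fin p → S → S → ℂ) (h : ∀ i, GramK (K i)) :
    GramK fun s t => ∏ i, K i s t := by
  induction p with
  | zero => exact GramK.one.congr fun s t => by simp
  | succ p ih =>
    refine ((h 0).mul (ih (fun i => K i.succ) fun i => h _)).congr fun s t => ?_
    rw [Fin.prod_univ_succ]

theorem GramK.finsum {ι : Type*} [Fintype ι] (K : ι → S → S → ℂ) (h : ∀ i, GramK (K i)) :
    GramK fun s t => ∑ i, K i s t := by
  choose N φ hφ using h
  refine GramK.of_fintype (κ := Σ i, Fin (N i)) (fun k s => φ k.1 k.2 s) fun s t => ?_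
  rw [Fintype.sum_sigma]
  exact Finset.sum_congr rfl fun i _ => hφ i s t

theorem GramK.sum_eq (hK : GramK K) {ι : Type*} [Fintype ι] (c : ι → ℂ) (f : ι → S) :
    ∃ a : ℝ, 0 ≤ a ∧ (∑ i, ∑ j, star (c i) * c j * K (f i) (f j)) = (a : ℂ) := by
  obtain ⟨N, φ, hφ⟩ := hK
  refine ⟨∑ k, Complex.normSq (∑ i, c i * φ k (f i)),
    Finset.sum_nonneg fun _ _ => Complex.normSq_nonneg _, ?_⟩
  rw [Complex.ofReal_sum]
  simp only [← normSq_star_mul, star_mul_sum, hφ]
  rw [Finset.sum_comm]
  rw [show (∑ k, ∑ i, ∑ j, star (c i) * c j * (star (φ k (f i)) * φ k (f j)))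
    = ∑ i, ∑ k, ∑ j, star (c i) * c j * (star (φ k (f i)) * φ k (f j)) from Finset.sum_comm]
  rw [Finset.sum_comm]
  refine Finset.sum_congr rfl fun i _ => ?_
  rw [Finset.sum_comm]
  exact Finset.sum_congr rfl fun j _ => by rw [Finset.mul_sum]

/-- **positivity of a Gram kernel.** -/
theorem GramK.nonneg (hK : GramK K) {ι : Type*} [Fintype ι] (c : ι → ℂ) (f : ι → S) :
    0 ≤ (∑ i, ∑ j, star (c i) * c j * K (f i) (f j)).re := by
  obtain ⟨a, ha, h⟩ := hK.sum_eq c f
  rw [h, Complex.ofReal_re]; exact ha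

/-- linear combinations. -/
theorem GramK.bilin (hK : GramK K) {X κ : Type*} [Fintype κ] (c : X → κ → ℂ) (f : X → κ → S) :
    GramK fun x y => ∑ k, ∑ l, star (c x k) * c y l * K (f x k) (f y l) := by
  obtain ⟨N, φ, hφ⟩ := hK
  refine ⟨N, fun i x => ∑ k, c x k * φ i (f x k), fun x y => ?_⟩
  dsimp only
  have h1 : ∀ i, star (∑ k, c x k * φ i (f x k)) * ∑ k, c y k * φ i (f y k)
      = ∑ k, ∑ l, star (c x k) * c y l * (star (φ i (f x k)) * φ i (f y l)) := by
    intro i
    rw [star_sum, Finset.sum_mul_sum]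
    exact Finset.sum_congr rfl fun k _ => Finset.sum_congr rfl fun l _ => by
      rw [star_mul']; ring
  simp only [h1, hφ, Finset.mul_sum]
  rw [Finset.sum_comm]
  rw [show (∑ i, ∑ k, ∑ l, star (c x k) * c y l * (star (φ i (f x k)) * φ i (f y l)))
    = ∑ k, ∑ i, ∑ l, star (c x k) * c y l * (star (φ i (f x k)) * φ i (f y l))
    from Finset.sum_comm]
  rw [Finset.sum_comm]
  refine Finset.sum_congr rfl fun k _ => ?_
  rw [Finset.sum_comm]

end kernel

/-! ### the projection onto `E` -/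

section proj

variable {n : ℕ} {B : Fin n → M6}

/-- `⟨u|X|u⟩` summed against `⟨w|Y|w⟩`. -/
theorem gram_uu' (hB : IsMUBs B) (X Y : Fin 6 × Fin 6 → ℂ) :
    ∑ u : Fin n × Fin 6, ∑ w : Fin n × Fin 6,
      star (ev B u X) * ev B w Y * (ip B u w * ip B w u)
      = (∑ u : Fin n × Fin 6, star (ev B u X) * ev B u Y)
        + (n : ℂ) * ((n : ℂ) - 1) / 6 * (star (tr X) * tr Y) := by
  have h1 : ∀ u : Fin n × Fin 6, ∑ w : Fin n × Fin 6,
      star (ev B u X) * ev B w Y * (ip B u w * ip B w u)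
      = star (ev B u X) * ev B u Y + star (ev B u X) * (((n : ℂ) - 1) / 6 * tr Y) := by
    intro u
    rw [Fintype.sum_prod_type]
    have h2 : ∀ j : Fin n, ∑ b, star (ev B u X) * ev B (j, b) Y * (ip B u (j, b) * ip B (j, b) u)
        = (if j = u.1 then star (ev B u X) * ev B u Y - star (ev B u X) * (1 / 6 * tr Y) else 0)
          + star (ev B u X) * (1 / 6 * tr Y) := by
      intro j
      by_cases hj : j = u.1
      · subst hj
        rw [if_pos rfl]
        have h3 : ∀ b, star (ev B u X) * ev B (u.1, b) Y * (ip B u (u.1, b) * ip B (u.1, b) u)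
            = dl u.2 b * (star (ev B u X) * ev B (u.1, b) Y) := by
          intro b
          have e1 : ip B u (u.1, b) = dl u.2 b := ip_same hB u.1 u.2 b
          have e2 : ip B (u.1, b) u = dl b u.2 := ip_same hB u.1 b u.2
          rw [e1, e2]
          unfold dl
          by_cases hb : u.2 = b
          · simp [hb]
          · simp [hb]
        simp only [h3]
        rw [sum_dl]
        ring
      · rw [if_neg hj, zero_add]
        have h3 : ∀ b, star (ev B u X) * ev B (j, b) Y * (ip B u (j, b) * ip B (j, b) u)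
            = star (ev B u X) * (1 / 6) * ev B (j, b) Y := by
          intro b
          rw [ip_mul hB (u := u) (v := (j, b)) (fun h => hj h.symm)]
          ring
        simp only [h3]
        rw [← Finset.mul_sum, sum_ev hB]
        ring
    simp only [h2]
    rw [Finset.sum_add_distrib, Finset.sum_ite_eq' Finset.univ u.1, if_pos (Finset.mem_univ _),
      Finset.sum_const, Finset.card_univ, Fintype.card_fin, nsmul_eq_mul]
    ring
  simp only [h1]
  rw [Finset.sum_add_distrib]
  congr 1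
  rw [← Finset.sum_mul, ← star_sum]
  rw [Fintype.sum_prod_type]
  simp only [sum_ev hB]
  rw [Finset.sum_const, Finset.card_univ, Fintype.card_fin, nsmul_eq_mul, star_mul']
  have : star (n : ℂ) = (n : ℂ) := by simp
  rw [this]
  ring

/-- the projection of `X` onto the complement of the diagonal algebras. -/
noncomputable def PE (B : Fin n → M6) (X : Fin 6 × Fin 6 → ℂ) (k : Fin 6 × Fin 6) : ℂ :=
  X k - ∑ i : Option (Fin n × Fin 6), i.elim (-(((n : ℂ) - 1) / 6 * tr X)) (fun u => ev B u X)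
    * i.elim (dl k.1 k.2) (fun u => vec B u k.1 * star (vec B u k.2))

theorem bess' {κ ι : Type*} [Fintype κ] [Fintype ι] (X Y : κ → ℂ) (T : ι → κ → ℂ) (c d : ι → ℂ) :
    ((∑ k, star (X k) * Y k) - (∑ i, star (c i) * ∑ k, star (T i k) * Y k)
      - (∑ i, d i * ∑ k, star (X k) * T i k)
      + ∑ i, ∑ j, star (c i) * d j * ∑ k, star (T i k) * T j k)
      = ∑ k, star (X k - ∑ i, c i * T i k) * (Y k - ∑ i, d i * T i k) := by
  have e : ∀ k, star (X k - ∑ i, c i * T i k) * (Y k - ∑ i, d i * T i k)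
      = star (X k) * Y k - (∑ i, star (c i) * (star (T i k) * Y k))
        - (∑ i, d i * (star (X k) * T i k))
        + ∑ i, ∑ j, star (c i) * d j * (star (T i k) * T j k) := by
    intro k
    rw [star_sub, star_sum, sub_mul, mul_sub, mul_sub, Finset.sum_mul_sum, Finset.sum_mul,
      Finset.mul_sum]
    have h1 : ∑ i, star (X k) * (d i * T i k) = ∑ i, d i * (star (X k) * T i k) :=
      Finset.sum_congr rfl fun i _ => by ring
    have h2 : ∑ i, star (c i * T i k) * Y k = ∑ i, star (c i) * (star (T i k) * Y k) :=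
      Finset.sum_congr rfl fun i _ => by rw [star_mul']; ring
    have h3 : ∑ i, ∑ j, star (c i * T i k) * (d j * T j k)
        = ∑ i, ∑ j, star (c i) * d j * (star (T i k) * T j k) :=
      Finset.sum_congr rfl fun i _ => Finset.sum_congr rfl fun j _ => by rw [star_mul']; ring
    rw [h1, h2, h3]; ring
  simp only [e, Finset.sum_add_distrib, Finset.sum_sub_distrib]
  congr 1
  · congr 1
    · congr 1
      rw [Finset.sum_comm]
      exact Finset.sum_congr rfl fun i _ => by rw [Finset.mul_sum]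
    · rw [Finset.sum_comm]
      exact Finset.sum_congr rfl fun i _ => by rw [Finset.mul_sum]
  · symm
    rw [Finset.sum_comm]
    refine Finset.sum_congr rfl fun i _ => ?_
    rw [Finset.sum_comm]
    exact Finset.sum_congr rfl fun j _ => by rw [Finset.mul_sum]

/-- `⟨X, P_E Y⟩ = ⟨P_E X, P_E Y⟩`. -/
theorem EF_eq (hB : IsMUBs B) (X Y : Fin 6 × Fin 6 → ℂ) :
    EF B X Y = ∑ k, star (PE B X k) * PE B Y k := by
  have h := bess' X Y
    (fun (i : Option (Fin n × Fin 6)) k => i.elim (dl k.1 k.2)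
      (fun u => vec B u k.1 * star (vec B u k.2)))
    (fun i => i.elim (-(((n : ℂ) - 1) / 6 * tr X)) (fun u => ev B u X))
    (fun i => i.elim (-(((n : ℂ) - 1) / 6 * tr Y)) (fun u => ev B u Y))
  unfold PE
  rw [← h]
  simp only [Fintype.sum_option, Option.elim_none, Option.elim_some]
  have e1 : ∑ k : Fin 6 × Fin 6, star (dl k.1 k.2) * Y k = tr Y := by
    unfold tr; exact Finset.sum_congr rfl fun k _ => by rw [star_dl]
  have e2 : ∀ u, ∑ k : Fin 6 × Fin 6, star (vec B u k.1 * star (vec B u k.2)) * Y k = ev B u Y :=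
    fun u => rfl
  have e3 : ∑ k : Fin 6 × Fin 6, star (X k) * dl k.1 k.2 = star (tr X) := by
    unfold tr; rw [star_sum]
    exact Finset.sum_congr rfl fun k _ => by rw [star_mul', star_dl]; ring
  have e4 : ∀ u, ∑ k : Fin 6 × Fin 6, star (X k) * (vec B u k.1 * star (vec B u k.2))
      = star (ev B u X) := fun u => by
    unfold ev; rw [star_sum]
    exact Finset.sum_congr rfl fun k _ => by rw [star_mul', star_star]; ring
  have e5 : ∑ k : Fin 6 × Fin 6, star (dl k.1 k.2) * dl k.1 k.2 = 6 := by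
    have h1 := tr_eq (fun k : Fin 6 × Fin 6 => dl k.1 k.2)
    unfold tr at h1
    simp only [star_dl]
    rw [h1]
    simp [dl_self]
  have e6 : ∀ u, ∑ k : Fin 6 × Fin 6, star (dl k.1 k.2) * (vec B u k.1 * star (vec B u k.2)) = 1 :=
    fun u => by
    have h1 := congrArg star (hs_diag hB u)
    rw [star_sum, star_one] at h1
    rw [← h1]
    exact Finset.sum_congr rfl fun k _ => by
      rw [star_mul' (star (vec B u k.1 * star (vec B u k.2))), star_star, star_dl]; ring
  have e7 : ∀ u w : Fin n × Fin 6, ∑ k : Fin 6 × Fin 6,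
      star (vec B u k.1 * star (vec B u k.2)) * (vec B w k.1 * star (vec B w k.2))
      = ip B u w * ip B w u := fun u w => hs_uu u w
  have e8 : ∀ u, ∑ k : Fin 6 × Fin 6, star (vec B u k.1 * star (vec B u k.2)) * dl k.1 k.2 = 1 :=
    fun u => hs_diag hB u
  simp only [e1, e2, e3, e4, e5, e6, e7, e8]
  have hn : star (-(((n : ℂ) - 1) / 6 * tr X)) = -(((n : ℂ) - 1) / 6 * star (tr X)) := by
    rw [star_neg, star_mul']
    congr 2
    simp
  have hS : ∀ Z : Fin 6 × Fin 6 → ℂ, ∑ u : Fin n × Fin 6, ev B u Z = (n : ℂ) * tr Z := by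
    intro Z
    rw [Fintype.sum_prod_type]
    simp only [sum_ev hB]
    rw [Finset.sum_const, Finset.card_univ, Fintype.card_fin, nsmul_eq_mul]
  have hS' : ∑ u : Fin n × Fin 6, star (ev B u X) = (n : ℂ) * star (tr X) := by
    rw [← star_sum, hS, star_mul']; simp
  have f1 : ∑ x : Fin n × Fin 6, star (-(((n : ℂ) - 1) / 6 * tr X)) * ev B x Y * 1
      = -(((n : ℂ) - 1) / 6 * star (tr X)) * ((n : ℂ) * tr Y) := by
    simp only [mul_one]
    rw [← Finset.mul_sum, hS, hn]
  have f2 : ∑ x : Fin n × Fin 6, (star (ev B x X) * -(((n : ℂ) - 1) / 6 * tr Y) * 1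
        + ∑ w : Fin n × Fin 6, star (ev B x X) * ev B w Y * (ip B x w * ip B w x))
      = (n : ℂ) * star (tr X) * -(((n : ℂ) - 1) / 6 * tr Y)
        + ((∑ u : Fin n × Fin 6, star (ev B u X) * ev B u Y)
        + (n : ℂ) * ((n : ℂ) - 1) / 6 * (star (tr X) * tr Y)) := by
    rw [Finset.sum_add_distrib, gram_uu' hB]
    congr 1
    simp only [mul_one]
    rw [← Finset.sum_mul, hS']
  have f3 : ∑ u : Fin n × Fin 6, ev B u Y * star (ev B u X)
      = ∑ u : Fin n × Fin 6, star (ev B u X) * ev B u Y :=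
    Finset.sum_congr rfl fun u _ => mul_comm _ _
  rw [f1, f2, f3, hn]
  unfold EF
  ring

theorem GramK_EF (hB : IsMUBs B) : GramK (EF B) := by
  refine GramK.of_fintype (κ := Fin 6 × Fin 6) (fun k X => PE B X k) fun X Y => ?_
  exact EF_eq hB X Y

/-! ### the kernels of the legs -/

/-- the inner product of two arbitrary vectors of `ℂ⁶`. -/
def hv (x y : Fin 6 → ℂ) : ℂ := ∑ r, star (x r) * y r

theorem ip_hv (B : Fin n → M6) (u v : Fin n × Fin 6) : ip B u v = hv (vec B u) (vec B v) := rfl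

theorem star_hv (x y : Fin 6 → ℂ) : star (hv x y) = hv y x := by
  unfold hv
  rw [star_sum]
  exact Finset.sum_congr rfl fun r _ => by rw [star_mul', star_star]; ring

/-- the operator `|x⟩⟨y|`. -/
def op (x y : Fin 6 → ℂ) (k : Fin 6 × Fin 6) : ℂ := x k.1 * star (y k.2)

/-- `⟨ |x⟩⟨y| , P_E |x'⟩⟨y'| ⟩`. -/
noncomputable def EK (B : Fin n → M6) (X X' : (Fin 6 → ℂ) × (Fin 6 → ℂ)) : ℂ :=
  hv X.1 X'.1 * hv X'.2 X.2
    - (∑ u, hv X.1 (vec B u) * hv (vec B u) X'.1 * (hv X'.2 (vec B u) * hv (vec B u) X.2))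
    + ((n : ℂ) - 1) / 6 * (hv X.1 X.2 * hv X'.2 X'.1)

/-- `⟨ |x⟩⟨y| , P_i |x'⟩⟨y'| ⟩`, `P_i` the projection onto the traceless diagonal matrices of the
`i`-th basis. -/
noncomputable def DK (B : Fin n → M6) (i : Fin n) (X X' : (Fin 6 → ℂ) × (Fin 6 → ℂ)) : ℂ :=
  (∑ a, hv X.1 (vec B (i, a)) * hv (vec B (i, a)) X'.1
      * (hv X'.2 (vec B (i, a)) * hv (vec B (i, a)) X.2))
    - 1 / 6 * (hv X.1 X.2 * hv X'.2 X'.1)

theorem GramK_hv : GramK hv := by
  refine GramK.of_fintype (κ := Fin 6) (fun k x => x k) fun x y => rfl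

theorem ev_op (x y : Fin 6 → ℂ) (u : Fin n × Fin 6) :
    ev B u (op x y) = hv (vec B u) x * hv y (vec B u) := by
  unfold ev op
  have h : ∀ k : Fin 6 × Fin 6, star (vec B u k.1 * star (vec B u k.2)) * (x k.1 * star (y k.2))
      = (star (vec B u k.1) * x k.1) * (star (y k.2) * vec B u k.2) := fun k => by
    rw [star_mul', star_star]; ring
  simp only [h]
  rw [Fintype.sum_prod_type]
  unfold hv
  rw [Finset.sum_mul_sum]

theorem tr_op (x y : Fin 6 → ℂ) : tr (op x y) = hv y x := by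
  rw [tr_eq]
  unfold op hv
  exact Finset.sum_congr rfl fun r _ => by ring

theorem hs_op (x y x' y' : Fin 6 → ℂ) :
    ∑ k, star (op x y k) * op x' y' k = hv x x' * hv y' y := by
  unfold op
  have h : ∀ k : Fin 6 × Fin 6, star (x k.1 * star (y k.2)) * (x' k.1 * star (y' k.2))
      = (star (x k.1) * x' k.1) * (star (y' k.2) * y k.2) := fun k => by
    simp only [star_mul', star_star]; ring
  simp only [h]
  rw [Fintype.sum_prod_type]
  unfold hv
  rw [Finset.sum_mul_sum]

theorem EK_eq (X X' : (Fin 6 → ℂ) × (Fin 6 → ℂ)) :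
    EK B X X' = EF B (op X.1 X.2) (op X'.1 X'.2) := by
  unfold EF EK
  rw [hs_op]
  simp only [ev_op, tr_op, star_mul', star_hv]
  congr 1
  congr 1
  exact Finset.sum_congr rfl fun u _ => by ring

theorem GramK_EK (hB : IsMUBs B) : GramK (EK B) :=
  ((GramK_EF hB).comp fun X : (Fin 6 → ℂ) × (Fin 6 → ℂ) => op X.1 X.2).congr fun X X' => EK_eq X X'

theorem GramK_DK (hB : IsMUBs B) (i : Fin n) : GramK (DK B i) := by
  refine GramK.of_fintype (κ := Fin 6) (fun a X => hv (vec B (i, a)) X.1 * hv X.2 (vec B (i, a))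
    - 1 / 6 * hv X.2 X.1) fun X X' => ?_
  have hc : ∀ x y : Fin 6 → ℂ, ∑ a, hv x (vec B (i, a)) * hv (vec B (i, a)) y = hv x y := by
    intro x y
    unfold hv
    calc _ = ∑ a, ∑ r, ∑ s, star (x r) * y s * (vec B (i, a) r * star (vec B (i, a) s)) := by
          refine Finset.sum_congr rfl fun a _ => ?_
          rw [Finset.sum_mul_sum]
          exact Finset.sum_congr rfl fun r _ => Finset.sum_congr rfl fun s _ => by ring
      _ = ∑ r, ∑ s, star (x r) * y s * ∑ a, (vec B (i, a) r * star (vec B (i, a) s)) := by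
          rw [Finset.sum_comm]
          refine Finset.sum_congr rfl fun r _ => ?_
          rw [Finset.sum_comm]
          refine Finset.sum_congr rfl fun s _ => ?_
          rw [Finset.mul_sum]
      _ = _ := by
          have h : ∀ r s, ∑ a, (vec B (i, a) r * star (vec B (i, a) s)) = dl r s := fun r s =>
            unitary_rows (hB.1 i) r s
          simp only [h]
          refine Finset.sum_congr rfl fun r _ => ?_
          exact sum_dl' (fun s => star (x r) * y s) r
  have h1 : ∑ a, star (hv (vec B (i, a)) X.1 * hv X.2 (vec B (i, a))) = hv X.1 X.2 := by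
    rw [← hc X.1 X.2]
    exact Finset.sum_congr rfl fun a _ => by rw [star_mul', star_hv, star_hv]
  have h2 : ∑ a, hv (vec B (i, a)) X'.1 * hv X'.2 (vec B (i, a)) = hv X'.2 X'.1 := by
    rw [← hc X'.2 X'.1]
    exact Finset.sum_congr rfl fun a _ => by ring
  have h3 : ∀ a, star (hv (vec B (i, a)) X.1 * hv X.2 (vec B (i, a)) - 1 / 6 * hv X.2 X.1)
      * (hv (vec B (i, a)) X'.1 * hv X'.2 (vec B (i, a)) - 1 / 6 * hv X'.2 X'.1)
      = hv X.1 (vec B (i, a)) * hv (vec B (i, a)) X'.1
          * (hv X'.2 (vec B (i, a)) * hv (vec B (i, a)) X.2)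
        - 1 / 6 * hv X'.2 X'.1 * star (hv (vec B (i, a)) X.1 * hv X.2 (vec B (i, a)))
        - 1 / 6 * hv X.1 X.2 * (hv (vec B (i, a)) X'.1 * hv X'.2 (vec B (i, a)))
        + 1 / 36 * (hv X.1 X.2 * hv X'.2 X'.1) := by
    intro a
    have h6 : star (1 / 6 : ℂ) = 1 / 6 := by simp
    rw [star_sub, star_mul' (1 / 6 : ℂ), star_mul', star_hv, star_hv, star_hv, h6]
    ring
  simp only [h3]
  rw [Finset.sum_add_distrib, Finset.sum_sub_distrib, Finset.sum_sub_distrib, ← Finset.mul_sum,
    ← Finset.mul_sum, h1, h2, Finset.sum_const, Finset.card_univ, Fintype.card_fin, nsmul_eq_mul]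
  unfold DK
  push_cast
  ring

/-- the kernel of a family of flags with `p` ket legs, `q` bra legs and `e` legs in `E`. -/
noncomputable def legK {S : Type*} (B : Fin n → M6) {p q e : ℕ} (x : Fin p → S → (Fin 6 → ℂ))
    (y : Fin q → S → (Fin 6 → ℂ)) (z : Fin e → S → (Fin 6 → ℂ) × (Fin 6 → ℂ)) (s t : S) : ℂ :=
  (∏ i, hv (x i s) (x i t)) * (∏ j, hv (y j t) (y j s)) * ∏ l, EK B (z l s) (z l t)

theorem GramK_legK (hB : IsMUBs B) {S : Type*} {p q e : ℕ} (x : Fin p → S → (Fin 6 → ℂ))
    (y : Fin q → S → (Fin 6 → ℂ)) (z : Fin e → S → (Fin 6 → ℂ) × (Fin 6 → ℂ)) :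
    GramK (legK B x y z) :=
  ((GramK.prod (fun i s t => hv (x i s) (x i t)) fun i => GramK_hv.comp (x i)).mul
    (GramK.prod (fun j s t => hv (y j t) (y j s)) fun j => (GramK_hv.swap).comp (y j))).mul
    (GramK.prod (fun l s t => EK B (z l s) (z l t)) fun l => (GramK_EK hB).comp (z l))

/-- **flags with any number of legs**: for every finite index set `S` (flags times assignments of
the internal vertices, and of the indices of the strands joining two legs). -/
theorem legs_nonneg (hB : IsMUBs B) {S : Type*} [Fintype S] {p q e : ℕ} (c : S → ℂ)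
    (x : Fin p → S → (Fin 6 → ℂ)) (y : Fin q → S → (Fin 6 → ℂ))
    (z : Fin e → S → (Fin 6 → ℂ) × (Fin 6 → ℂ)) :
    0 ≤ (∑ s, ∑ t, star (c s) * c t * ((∏ i, hv (x i s) (x i t)) * (∏ j, hv (y j t) (y j s))
      * ∏ l, (hv (z l s).1 (z l t).1 * hv (z l t).2 (z l s).2
        - (∑ u, hv (z l s).1 (vec B u) * hv (vec B u) (z l t).1
            * (hv (z l t).2 (vec B u) * hv (vec B u) (z l s).2))
        + ((n : ℂ) - 1) / 6 * (hv (z l s).1 (z l s).2 * hv (z l t).2 (z l t).1)))).re :=
  (GramK_legK hB x y z).nonneg c id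

/-- the same when all end points are vertices. -/
theorem legs_nonneg_ip (hB : IsMUBs B) {S : Type*} [Fintype S] {p q e : ℕ} (c : S → ℂ)
    (x : Fin p → S → Fin n × Fin 6) (y : Fin q → S → Fin n × Fin 6)
    (z w : Fin e → S → Fin n × Fin 6) :
    0 ≤ (∑ s, ∑ t, star (c s) * c t * ((∏ i, ip B (x i s) (x i t)) * (∏ j, ip B (y j t) (y j s))
      * ∏ l, (ip B (z l s) (z l t) * ip B (w l t) (w l s)
        - (∑ u, ip B (z l s) u * ip B u (z l t) * (ip B (w l t) u * ip B u (w l s)))
        + ((n : ℂ) - 1) / 6 * (ip B (z l s) (w l s) * ip B (w l t) (z l t))))).re :=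
  legs_nonneg hB c (fun i s => vec B (x i s)) (fun j s => vec B (y j s))
    (fun l s => (vec B (z l s), vec B (w l s)))

/-- the same with a nonnegative weight, summed over a finite set of labels. -/
theorem legs_nonneg_sum (hB : IsMUBs B) {S Ω : Type*} [Fintype S] [Fintype Ω] {p q e : ℕ}
    (wt : Ω → ℝ) (hw : ∀ o, 0 ≤ wt o) (c : S → Ω → ℂ)
    (x : Fin p → S → Ω → Fin n × Fin 6) (y : Fin q → S → Ω → Fin n × Fin 6)
    (z w : Fin e → S → Ω → Fin n × Fin 6) :
    0 ≤ (∑ o, (wt o : ℂ) * ∑ s, ∑ t, star (c s o) * c t o *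
      ((∏ i, ip B (x i s o) (x i t o)) * (∏ j, ip B (y j t o) (y j s o))
      * ∏ l, (ip B (z l s o) (z l t o) * ip B (w l t o) (w l s o)
        - (∑ u, ip B (z l s o) u * ip B u (z l t o) * (ip B (w l t o) u * ip B u (w l s o)))
        + ((n : ℂ) - 1) / 6 * (ip B (z l s o) (w l s o) * ip B (w l t o) (z l t o))))).re := by
  rw [Complex.re_sum]
  refine Finset.sum_nonneg fun o _ => ?_
  rw [Complex.re_ofReal_mul]
  exact mul_nonneg (hw o) (legs_nonneg_ip hB (fun s => c s o) (fun i s => x i s o)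
    (fun j s => y j s o) (fun l s => z l s o) (fun l s => w l s o))

end proj

end Vale.Agent.P355.H790
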