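import Vale.Agent.P355.H790.Legs
import Vale.Agent.P355.H147.Group

/-! The Gram kernels of flags with legs, in the form `GramF` of `H147.Group`. -/

namespace Vale.Agent.P355.H790

open Finset Vale.Agent.P355 Vale.Agent.P355.H349

section kernel

variable {S : Type*} {K : S → S → ℂ}

/-- the real part is a real Gram kernel in the sense of `GramF`. -/
theorem GramK.gramF (hK : GramK K) : H147.GramF fun s t => (K s t).re := by
  obtain ⟨N, φ, hφ⟩ := hK
  refine ⟨Fin N, inferInstance, φ, fun s t => ?_⟩
  dsimp only
  rw [hφ, Complex.re_sum]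
  refine Finset.sum_congr rfl fun i _ => ?_
  have h : φ i s * star (φ i t) = star (star (φ i s) * φ i t) := by
    rw [star_mul', star_star]
  rw [h]
  exact (Complex.conj_re _).symm

end kernel

section proj

variable {n : ℕ} {B : Fin n → M6}

/-- **the Gram kernel of flags with legs** (real form): `X` = flags, `κ` = assignments of the
internal vertices, `Ω` = assignments of the labels, with nonnegative weights `wt`. -/
theorem legs_gramF (hB : IsMUBs B) {X κ Ω : Type*} [Fintype κ] [Fintype Ω] {p q e : ℕ}
    (wt : Ω → ℝ) (hw : ∀ o, 0 ≤ wt o) (c : X → κ → Ω → ℂ)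
    (x : Fin p → X → κ → Ω → Fin n × Fin 6) (y : Fin q → X → κ → Ω → Fin n × Fin 6)
    (z w : Fin e → X → κ → Ω → Fin n × Fin 6) :
    H147.GramF fun a b : X => (∑ o, (wt o : ℂ) * ∑ k, ∑ k', star (c a k o) * c b k' o *
      ((∏ i, ip B (x i a k o) (x i b k' o)) * (∏ j, ip B (y j b k' o) (y j a k o))
      * ∏ l, (ip B (z l a k o) (z l b k' o) * ip B (w l b k' o) (w l a k o)
        - (∑ u, ip B (z l a k o) u * ip B u (z l b k' o)
            * (ip B (w l b k' o) u * ip B u (w l a k o)))
        + ((n : ℂ) - 1) / 6 * (ip B (z l a k o) (w l a k o)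
            * ip B (w l b k' o) (z l b k' o))))).re := by
  refine GramK.gramF ?_
  refine GramK.finsum _ fun o => GramK.smul ?_ (hw o)
  exact (GramK_legK hB (S := X × κ) (fun i s => vec B (x i s.1 s.2 o))
    (fun j s => vec B (y j s.1 s.2 o))
    (fun l s => (vec B (z l s.1 s.2 o), vec B (w l s.1 s.2 o)))).bilin
    (fun a k => c a k o) (fun a k => (a, k))

end proj

end Vale.Agent.P355.H790
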