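import Vale.Agent.P355.H147.Legs2
import Vale.Agent.P355.H790.LegsF

/-! The packing block: flags with one leg in the complement of the diagonal algebras, in the class
language of `H147`.  Kernel and product formula. -/

namespace Vale.Agent.P355.H790

open Finset Matrix Vale.Agent.P355 Vale.Agent.P355.H147
open Vale.Agent.P355.H349 (vec)

variable {m N c : ℕ} {B : Fin m → M6}

/-! ### Averages over two mixed assignments -/

theorem two_mix (t : Lty N c) (ht : t.Ok) (H : (Fin N → Fin 6) → (Fin N → Fin 6) → ℂ)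
    (hH : ∀ v v' w w', (∀ p, (t.rt p = true ∨ t.L p = true) → v p = v' p) →
      (∀ p, (t.rt p = true ∨ t.L p = true) → w p = w' p) → H v w = H v' w') :
    ∑ v : Fin N → Fin 6, (6⁻¹ : ℂ) ^ N * (6⁻¹ : ℂ) ^ N * ∑ u : Fin N → Fin 6,
      ∑ u' : Fin N → Fin 6, H (mix (fun p => !t.rt p) v u) (mix (fun p => !t.rt p) v u')
      = ∑ V : Fin N → Fin 6, H V (V ∘ t.ι) := by
  have hpos : (6 : ℂ) ^ N ≠ 0 := pow_ne_zero _ (by norm_num)
  have h1 : ∀ v u u' : Fin N → Fin 6,
      H (mix (fun p => !t.rt p) v u) (mix (fun p => !t.rt p) v u')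
      = (fun V => H V (V ∘ t.ι))
        (mix (fun p => !(t.rt p || t.L p)) (mix t.L v u) (u' ∘ t.ι)) := by
    intro v u u'
    refine hH _ _ _ _ ?_ ?_
    · intro p hp
      unfold mix
      rcases hp with hp | hp
      · have hL : t.L p = false := by
          by_contra h
          have := ht.Lr p (by simpa using h)
          rw [hp] at this; cases this
        simp [hp, hL]
      · have hr := ht.Lr p hp
        simp [hp, hr]
    · intro p hp
      show _ = mix _ _ _ (t.ι p)
      unfold mix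
      rcases hp with hp | hp
      · have hL : t.L p = false := by
          by_contra h
          have := ht.Lr p (by simpa using h)
          rw [hp] at this; cases this
        rw [ht.rι p hp]
        simp [hp, hL]
      · have hr := ht.Lr p hp
        have hL := ht.LR p hp
        have hri : t.rt (t.ι p) = false := by
          by_contra h
          have h1 := ht.rι (t.ι p) (by simpa using h)
          rw [ht.inv] at h1
          rw [← h1, hr] at h
          exact h rfl
        simp [hr, hri, hL, ht.inv]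
  simp only [h1]
  have h2 : ∀ v u : Fin N → Fin 6, ∑ u' : Fin N → Fin 6,
      (fun V => H V (V ∘ t.ι)) (mix (fun p => !(t.rt p || t.L p)) (mix t.L v u) (u' ∘ t.ι))
      = ∑ u' : Fin N → Fin 6,
        (fun V => H V (V ∘ t.ι)) (mix (fun p => !(t.rt p || t.L p)) (mix t.L v u) u') := by
    intro v u
    exact Fintype.sum_equiv (Equiv.arrowCongr t.ι.symm (Equiv.refl (Fin 6))) _ _ fun u' => rfl
  simp only [h2]
  rw [← Finset.mul_sum]
  have h3 := sum_mix t.L fun a => ∑ u' : Fin N → Fin 6,
    (fun V => H V (V ∘ t.ι)) (mix (fun p => !(t.rt p || t.L p)) a u')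
  have h4 := sum_mix (fun p => !(t.rt p || t.L p)) (fun V => H V (V ∘ t.ι))
  rw [h3, h4]
  rw [inv_pow]
  field_simp

/-! ### The kernel -/

/-- vector of a slot of a flag. -/
noncomputable def vx (t : Lty N c) (B : Fin m → M6) (e : Fin c → Fin m) (x : LFlg N c 1 1)
    (v : Fin N → Fin 6) : (Fin 6 → ℂ) × (Fin 6 → ℂ) :=
  (vc B (pt e (t.xc x) v (x.kt 0)), vc B (pt e (t.xc x) v (x.br 0)))

/-- integrand of the kernel. -/
noncomputable def ek (t : Lty N c) (B : Fin m → M6) (e : Fin c → Fin m) (x y : LFlg N c 1 1)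
    (v w : Fin N → Fin 6) : ℂ :=
  mon B e (t.xc x) x.fl v * star (mon B e (t.xc y) y.fl w) * EK B (vx t B e y w) (vx t B e x v)

/-- the kernel of the packing block. -/
noncomputable def ME (t : Lty N c) (B : Fin m → M6) (x y : LFlg N c 1 1) : ℝ :=
  (av m N c fun e v => (6⁻¹ : ℂ) ^ N * (6⁻¹ : ℂ) ^ N * ∑ u : Fin N → Fin 6,
    ∑ u' : Fin N → Fin 6, ek t B e x y (mix (fun p => !t.rt p) v u)
      (mix (fun p => !t.rt p) v u')).re

theorem ME_gram (hB : IsMUBs B) (t : Lty N c) : GramF (ME t B) := by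
  have hw : ∃ w : ℝ, 0 ≤ w ∧
      ((Fintype.card (Fin c ↪ Fin m) : ℂ)⁻¹ * (6⁻¹ : ℂ) ^ N) = (w : ℂ) := by
    refine ⟨(Fintype.card (Fin c ↪ Fin m) : ℝ)⁻¹ * (6⁻¹ : ℝ) ^ N, by positivity, ?_⟩
    push_cast; rfl
  obtain ⟨w, hw0, hw⟩ := hw
  have key : GramK fun x y : LFlg N c 1 1 => (w : ℂ) * ∑ e : Fin c ↪ Fin m,
      ∑ v : Fin N → Fin 6, ∑ u : Fin N → Fin 6, ∑ u' : Fin N → Fin 6,
        star ((6⁻¹ : ℂ) ^ N * mon B e (t.xc x) x.fl (mix (fun p => !t.rt p) v u))
        * ((6⁻¹ : ℂ) ^ N * mon B e (t.xc y) y.fl (mix (fun p => !t.rt p) v u'))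
        * EK B (vx t B e x (mix (fun p => !t.rt p) v u))
            (vx t B e y (mix (fun p => !t.rt p) v u')) := by
    refine GramK.smul (GramK.finsum _ fun e => GramK.finsum _ fun v => ?_) hw0
    exact (GramK_EK hB).bilin
      (fun x u => (6⁻¹ : ℂ) ^ N * mon B e (t.xc x) x.fl (mix (fun p => !t.rt p) v u))
      (fun x u => vx t B e x (mix (fun p => !t.rt p) v u))
  have h6 : star ((6⁻¹ : ℂ) ^ N) = (6⁻¹ : ℂ) ^ N := by
    rw [star_pow]; congr 1; simp
  have h2 := key.swap.gramF
  refine cast (congrArg GramF ?_) h2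
  funext x y
  unfold ME av
  rw [hw]
  congr 2
  refine Finset.sum_congr rfl fun e _ => Finset.sum_congr rfl fun v _ => ?_
  dsimp only
  rw [Finset.sum_comm, Finset.mul_sum]
  refine Finset.sum_congr rfl fun u _ => ?_
  rw [Finset.mul_sum]
  refine Finset.sum_congr rfl fun u' _ => ?_
  unfold ek
  rw [star_mul', h6]
  ring

/-! ### The product -/

/-- flags whose slots avoid `o`. -/
structure Avd (t : Lty N c) (o : Fin N) (x : LFlg N c 1 1) : Prop where
  cl : t.Clean x
  fo : ∀ q, x.fl o q = 0 ∧ x.fl q o = 0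
  ko : x.kt 0 ≠ o
  bo : x.br 0 ≠ o

theorem hv_vc (B : Fin m → M6) (o o' : Option (Fin m × Fin 6)) :
    hv (vc B o) (vc B o') = ipo B o o' := by
  rw [← vc_sum]
  unfold hv
  exact Finset.sum_congr rfl fun z _ => mul_comm _ _

theorem vec_vc (B : Fin m → M6) (u : Fin m × Fin 6) : vec B u = vc B (some u) := rfl

theorem star_ipo (B : Fin m → M6) (o o' : Option (Fin m × Fin 6)) :
    star (ipo B o o') = ipo B o' o := by
  rw [← hv_vc, ← hv_vc, star_hv]

/-- the combined integrand. -/
theorem ek_prod (hB : IsMUBs B) (t : Lty N c) (ht : t.Ok) (e : Fin c → Fin m)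
    (x y : LFlg N c 1 1) (hx : t.Clean x) (hy : t.Clean y) (V : Fin N → Fin 6) :
    ek t B e x y V (V ∘ t.ι) = mon B e (t.pcol x y) (t.pfl x y) V
      * EK B (vc B (pt e (t.pcol x y) V (t.ι (y.kt 0))), vc B (pt e (t.pcol x y) V (t.ι (y.br 0))))
        (vc B (pt e (t.pcol x y) V (x.kt 0)), vc B (pt e (t.pcol x y) V (x.br 0))) := by
  have sx : ∀ p : Fin N, (t.rt p = true ∨ t.L p = true) →
      pt e (t.pcol x y) V p = pt e (t.xc x) V p := by
    intro p hp
    unfold pt Lty.pcol Lty.xc
    rcases hp with hp | hp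
    · simp [hp]
    · have hr := ht.Lr p hp
      simp [hp, hr]
  have sy : ∀ p : Fin N, (t.rt p = true ∨ t.L p = true) →
      pt e (t.pcol x y) V (t.ι p) = pt e (t.xc y) (V ∘ t.ι) p := by
    intro p hp
    rcases hp with hp | hp
    · rw [ht.rι p hp]
      unfold pt Lty.pcol Lty.xc
      simp [hp, ht.rι p hp]
    · have hr := ht.Lr p hp
      have hL := ht.LR p hp
      have hri : t.rt (t.ι p) = false := by
        by_contra h
        have h1 := ht.rι (t.ι p) (by simpa using h)
        rw [ht.inv] at h1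
        rw [← h1, hr] at h
        exact h rfl
      unfold pt Lty.pcol
      simp [hri, hL, ht.inv]
  have hmon : mon B e (t.pcol x y) (t.pfl x y) V
      = mon B e (t.xc x) x.fl V * star (mon B e (t.xc y) y.fl (V ∘ t.ι)) := by
    have h3 : t.pfl x y = fun a b => x.fl a b + (fun a b => - y.fl (t.ι a) (t.ι b)) a b := by
      funext a b; simp [Lty.pfl, sub_eq_add_neg]
    rw [h3, mon_add hB]
    congr 1
    · unfold mon
      refine Finset.prod_congr rfl fun p _ => Finset.prod_congr rfl fun q _ => ?_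
      by_cases hp : t.rt p = true ∨ t.L p = true
      · by_cases hq : t.rt q = true ∨ t.L q = true
        · rw [sx p hp, sx q hq]
        · push Not at hq
          rw [(hx.fl q (by simpa using hq.1) (by simpa using hq.2) p).2, zpow_zero, zpow_zero]
      · push Not at hp
        rw [(hx.fl p (by simpa using hp.1) (by simpa using hp.2) q).1, zpow_zero, zpow_zero]
    · rw [star_mon hB]
      unfold mon
      refine Fintype.prod_equiv t.ι _ _ fun p => ?_
      refine Fintype.prod_equiv t.ι _ _ fun q => ?_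
      by_cases hp : t.rt (t.ι p) = true ∨ t.L (t.ι p) = true
      · by_cases hq : t.rt (t.ι q) = true ∨ t.L (t.ι q) = true
        · have e1 := sy (t.ι p) hp
          have e2 := sy (t.ι q) hq
          rw [ht.inv] at e1 e2
          rw [e1, e2]
        · push Not at hq
          have := (hy.fl (t.ι q) (by simpa using hq.1) (by simpa using hq.2) (t.ι p)).2
          simp only [this, neg_zero, zpow_zero]
      · push Not at hp
        have := (hy.fl (t.ι p) (by simpa using hp.1) (by simpa using hp.2) (t.ι q)).1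
        simp only [this, neg_zero, zpow_zero]
  unfold ek vx
  rw [hmon, sx _ (hx.kt 0), sx _ (hx.br 0), sy _ (hy.kt 0), sy _ (hy.br 0)]

theorem ek_congr (t : Lty N c) (e : Fin c → Fin m) (x y : LFlg N c 1 1) (hx : t.Clean x)
    (hy : t.Clean y) (v v' w w' : Fin N → Fin 6)
    (hv : ∀ p, (t.rt p = true ∨ t.L p = true) → v p = v' p)
    (hw : ∀ p, (t.rt p = true ∨ t.L p = true) → w p = w' p) :
    ek t B e x y v w = ek t B e x y v' w' := by
  have h1 : ∀ (x : LFlg N c 1 1) (v v' : Fin N → Fin 6),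
      (∀ p, (t.rt p = true ∨ t.L p = true) → v p = v' p) → ∀ p,
      pt e (t.xc x) v p = pt e (t.xc x) v' p := by
    intro x v v' h p
    by_cases hp : t.rt p = true ∨ t.L p = true
    · unfold pt; rw [h p hp]
    · push Not at hp
      unfold pt Lty.xc
      simp [hp.1, hp.2]
  have h2 : ∀ (x : LFlg N c 1 1) (v v' : Fin N → Fin 6),
      (∀ p, (t.rt p = true ∨ t.L p = true) → v p = v' p) →
      mon B e (t.xc x) x.fl v = mon B e (t.xc x) x.fl v' := by
    intro x v v' h
    unfold mon
    simp only [h1 x v v' h]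
  unfold ek vx
  rw [h2 x v v' hv, h2 y w w' hw]
  simp only [h1 x v v' hv, h1 y w w' hw]

end Vale.Agent.P355.H790
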