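import Vale.Agent.P355.H790.Pk1

/-! The packing block: the kernel as a sum of five class values. -/

namespace Vale.Agent.P355.H790

open Finset Matrix Vale.Agent.P355 Vale.Agent.P355.H147
open Vale.Agent.P355.H349 (vec)

variable {m N c : ℕ} {B : Fin m → M6}

/-! ### Averages over a slot and over a colour -/

theorem slot_sum (o : Fin N) (F : (Fin N → Fin 6) → Fin 6 → ℂ)
    (hF : ∀ V k a, F (Function.update V o k) a = F V a) :
    ∑ V, ∑ a, F V a = 6 * ∑ V : Fin N → Fin 6, F V (V o) := by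
  have h := sum_update o (fun V => F V (V o))
  rw [h, ← mul_assoc]
  have h1 : ∀ V : Fin N → Fin 6, ∀ k, F (Function.update V o k) (Function.update V o k o)
      = F V k := by
    intro V k; rw [hF]; simp
  simp only [h1]
  norm_num

/-- averaging a third colour. -/
theorem col_sum (hc : 3 ≤ c) (G : (Fin c → Fin m) → Fin m → ℂ)
    (hG : ∀ e e' : Fin c → Fin m, e ⟨0, by omega⟩ = e' ⟨0, by omega⟩ →
      e ⟨1, by omega⟩ = e' ⟨1, by omega⟩ → ∀ j, G e j = G e' j) :
    ∑ e : Fin c ↪ Fin m, ∑ j : Fin m, G e j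
      = (∑ e : Fin c ↪ Fin m, G e (e ⟨0, by omega⟩)) + (∑ e : Fin c ↪ Fin m, G e (e ⟨1, by omega⟩))
        + ((m : ℂ) - 2) * ∑ e : Fin c ↪ Fin m, G e (e ⟨2, by omega⟩) := by
  classical
  set c0 : Fin c := ⟨0, by omega⟩ with h0
  set c1 : Fin c := ⟨1, by omega⟩ with h1
  set c2 : Fin c := ⟨2, by omega⟩ with h2
  have n01 : c0 ≠ c1 := by intro h; have := congrArg Fin.val h; simp [h0, h1] at this
  have n02 : c0 ≠ c2 := by intro h; have := congrArg Fin.val h; simp [h0, h2] at this
  have n12 : c1 ≠ c2 := by intro h; have := congrArg Fin.val h; simp [h1, h2] at this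
  -- splitting
  have hsplit : ∀ e : Fin c ↪ Fin m, ∑ j : Fin m, G e j = G e (e c0) + G e (e c1)
      + ∑ j : Fin m, (if j ≠ e c0 ∧ j ≠ e c1 then G e j else 0) := by
    intro e
    have hne : e c0 ≠ e c1 := fun h => n01 (e.injective h)
    have h3 : ∀ j : Fin m, G e j = (if j = e c0 then G e j else 0) + (if j = e c1 then G e j else 0)
        + (if j ≠ e c0 ∧ j ≠ e c1 then G e j else 0) := by
      intro j
      by_cases ha : j = e c0
      · have hb : j ≠ e c1 := by rw [ha]; exact hne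
        simp [ha, hne]
      · by_cases hb : j = e c1
        · simp [hb, Ne.symm hne]
        · simp [ha, hb]
    calc ∑ j : Fin m, G e j = ∑ j : Fin m, ((if j = e c0 then G e j else 0)
          + (if j = e c1 then G e j else 0)
          + (if j ≠ e c0 ∧ j ≠ e c1 then G e j else 0)) := Finset.sum_congr rfl fun j _ => h3 j
      _ = _ := by
        rw [Finset.sum_add_distrib, Finset.sum_add_distrib, Finset.sum_ite_eq',
          Finset.sum_ite_eq', if_pos (Finset.mem_univ _), if_pos (Finset.mem_univ _)]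
  simp only [hsplit]
  rw [Finset.sum_add_distrib, Finset.sum_add_distrib]
  congr 1
  -- exchange
  let sw : (Fin c ↪ Fin m) × Fin m → (Fin c ↪ Fin m) × Fin m := fun p =>
    (p.1.trans (Equiv.swap (p.1 c2) p.2).toEmbedding, p.1 c2)
  have h4 : ∑ e : Fin c ↪ Fin m, ∑ j : Fin m, (if j ≠ e c0 ∧ j ≠ e c1 then G e j else 0)
      = ∑ p ∈ (Finset.univ : Finset ((Fin c ↪ Fin m) × Fin m)).filter
        (fun p => p.2 ≠ p.1 c0 ∧ p.2 ≠ p.1 c1), G p.1 p.2 := by
    rw [Finset.sum_filter, Fintype.sum_prod_type]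
  have h5 : ∑ p ∈ (Finset.univ : Finset ((Fin c ↪ Fin m) × Fin m)).filter
        (fun p => p.2 ≠ p.1 c0 ∧ p.2 ≠ p.1 c1), G p.1 p.2
      = ∑ p ∈ (Finset.univ : Finset ((Fin c ↪ Fin m) × Fin m)).filter
        (fun p => p.2 ≠ p.1 c0 ∧ p.2 ≠ p.1 c1), G p.1 (p.1 c2) := by
    have hsw : ∀ p : (Fin c ↪ Fin m) × Fin m, p.2 ≠ p.1 c0 → p.2 ≠ p.1 c1 →
        (sw p).1 c0 = p.1 c0 ∧ (sw p).1 c1 = p.1 c1 ∧ (sw p).1 c2 = p.2 := by
      intro p ha hb
      refine ⟨?_, ?_, ?_⟩
      · show Equiv.swap (p.1 c2) p.2 (p.1 c0) = _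
        exact Equiv.swap_apply_of_ne_of_ne (fun h => n02 (p.1.injective h)) (Ne.symm ha)
      · show Equiv.swap (p.1 c2) p.2 (p.1 c1) = _
        exact Equiv.swap_apply_of_ne_of_ne (fun h => n12 (p.1.injective h)) (Ne.symm hb)
      · show Equiv.swap (p.1 c2) p.2 (p.1 c2) = _
        exact Equiv.swap_apply_left _ _
    have hinv : ∀ p : (Fin c ↪ Fin m) × Fin m, p.2 ≠ p.1 c0 → p.2 ≠ p.1 c1 → sw (sw p) = p := by
      intro p ha hb
      obtain ⟨a1, a2, a3⟩ := hsw p ha hb
      refine Prod.ext ?_ a3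
      ext i
      show ((Equiv.swap ((sw p).1 c2) (p.1 c2)) (Equiv.swap (p.1 c2) p.2 (p.1 i)) : Fin m).val = _
      rw [a3, Equiv.swap_comm, Equiv.swap_apply_self]
    refine Finset.sum_nbij' sw sw ?_ ?_ ?_ ?_ ?_
    · intro p hp
      rw [Finset.mem_filter] at hp ⊢
      obtain ⟨a1, a2, a3⟩ := hsw p hp.2.1 hp.2.2
      refine ⟨Finset.mem_univ _, ?_, ?_⟩
      · rw [a1]; exact fun h => n02 (p.1.injective h.symm)
      · rw [a2]; exact fun h => n12 (p.1.injective h.symm)
    · intro p hp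
      rw [Finset.mem_filter] at hp ⊢
      obtain ⟨a1, a2, a3⟩ := hsw p hp.2.1 hp.2.2
      refine ⟨Finset.mem_univ _, ?_, ?_⟩
      · rw [a1]; exact fun h => n02 (p.1.injective h.symm)
      · rw [a2]; exact fun h => n12 (p.1.injective h.symm)
    · intro p hp
      rw [Finset.mem_filter] at hp
      exact hinv p hp.2.1 hp.2.2
    · intro p hp
      rw [Finset.mem_filter] at hp
      exact hinv p hp.2.1 hp.2.2
    · intro p hp
      rw [Finset.mem_filter] at hp
      obtain ⟨a1, a2, a3⟩ := hsw p hp.2.1 hp.2.2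
      rw [a3]
      exact hG _ _ a1.symm a2.symm _
  rw [h4, h5, Finset.sum_filter, Fintype.sum_prod_type, Finset.mul_sum]
  refine Finset.sum_congr rfl fun e _ => ?_
  have hne : e c0 ≠ e c1 := fun h => n01 (e.injective h)
  have h6 : ∑ j : Fin m, (if j ≠ e c0 ∧ j ≠ e c1 then G e (e c2) else 0)
      = ((m : ℂ) - 2) * G e (e c2) := by
    have h7 : ∀ j : Fin m, (if j ≠ e c0 ∧ j ≠ e c1 then G e (e c2) else 0)
        = G e (e c2) - (if j = e c0 then G e (e c2) else 0)
          - (if j = e c1 then G e (e c2) else 0) := by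
      intro j
      by_cases ha : j = e c0
      · simp [ha, hne]
      · by_cases hb : j = e c1
        · simp [hb, Ne.symm hne]
        · simp [ha, hb]
    simp only [h7]
    rw [Finset.sum_sub_distrib, Finset.sum_sub_distrib, Finset.sum_ite_eq', Finset.sum_ite_eq',
      if_pos (Finset.mem_univ _), if_pos (Finset.mem_univ _), Finset.sum_const, Finset.card_univ,
      Fintype.card_fin, nsmul_eq_mul]
    ring
  exact h6

/-! ### The five terms -/

/-- no labels. -/
def lab0 : Fin N → Bool := fun _ => false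

theorem inj0 (col : Fin N → Option (Fin c)) (v : Fin N → Fin 6) : inj col lab0 v := by
  intro p q _ hp; exact absurd hp (by simp [lab0])

theorem fg0 (e : Fin c → Fin m) (col : Fin N → Option (Fin c)) (f : Fin N → Fin N → ℤ)
    (v : Fin N → Fin 6) : fg B e col lab0 f v = mon B e col f v := by
  unfold fg; rw [if_pos (inj0 col v)]

/-- colours only `0`, `1`. -/
def C01 (col : Fin N → Option (Fin c)) : Prop := ∀ p k, col p = some k → (k : ℕ) < 2

variable {t : Lty N c} {x y : LFlg N c 1 1} {o : Fin N}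

/-- brackets of the main term. -/
def kMain (t : Lty N c) (x y : LFlg N c 1 1) : List (Fin N × Fin N) :=
  [(t.ι (y.kt 0), x.kt 0), (x.br 0, t.ι (y.br 0))]

/-- brackets of the trace term. -/
def kTr (t : Lty N c) (x y : LFlg N c 1 1) : List (Fin N × Fin N) :=
  [(t.ι (y.kt 0), t.ι (y.br 0)), (x.br 0, x.kt 0)]

/-- brackets of a diagonal term. -/
def kDg (t : Lty N c) (o : Fin N) (x y : LFlg N c 1 1) : List (Fin N × Fin N) :=
  [(t.ι (y.kt 0), o), (o, x.kt 0), (x.br 0, o), (o, t.ι (y.br 0))]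

/-- colours of a diagonal term. -/
def cDg (t : Lty N c) (o : Fin N) (x y : LFlg N c 1 1) (k : Fin c) : Fin N → Option (Fin c) :=
  Function.update (t.pcol x y) o (some k)

/-- **the product formula of the packing block.** -/
theorem ME_eq (hB : IsMUBs B) (ht : t.Ok) (hc : 3 ≤ c) (hx : Avd t o x) (hy : Avd t o y)
    (hoo : t.ι o = o) (hcol : C01 (t.pcol x y)) (hpo : t.pcol x y o = none) :
    ME t B x y = (gve B (t.pcol x y) lab0 (t.pfl x y) (kMain t x y)).re
      + ((m : ℝ) - 1) / 6 * (gve B (t.pcol x y) lab0 (t.pfl x y) (kTr t x y)).re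
      - 6 * (gve B (cDg t o x y ⟨0, by omega⟩) lab0 (t.pfl x y) (kDg t o x y)).re
      - 6 * (gve B (cDg t o x y ⟨1, by omega⟩) lab0 (t.pfl x y) (kDg t o x y)).re
      - 6 * ((m : ℝ) - 2) * (gve B (cDg t o x y ⟨2, by omega⟩) lab0 (t.pfl x y)
        (kDg t o x y)).re := by
  have hko : t.ι (y.kt 0) ≠ o := fun h => hy.ko (t.ι.injective (h.trans hoo.symm))
  have hbo : t.ι (y.br 0) ≠ o := fun h => hy.bo (t.ι.injective (h.trans hoo.symm))
  -- one diagonal term
  let G : (Fin c → Fin m) → Fin m → ℂ := fun e j => ∑ V : Fin N → Fin 6,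
    mon B e (t.pcol x y) (t.pfl x y) V *
      (ipo B (pt e (t.pcol x y) V (t.ι (y.kt 0))) (some (j, V o))
        * ipo B (some (j, V o)) (pt e (t.pcol x y) V (x.kt 0))
        * (ipo B (pt e (t.pcol x y) V (x.br 0)) (some (j, V o))
          * ipo B (some (j, V o)) (pt e (t.pcol x y) V (t.ι (y.br 0)))))
  have hpt : ∀ (e : Fin c → Fin m) (V : Fin N → Fin 6) (k : Fin 6) (p : Fin N),
      pt e (t.pcol x y) (Function.update V o k) p = pt e (t.pcol x y) V p := by
    intro e V k p
    by_cases hp : p = o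
    · unfold pt; rw [hp, hpo]; rfl
    · unfold pt; rw [Function.update_of_ne hp]
  have hmon : ∀ (e : Fin c → Fin m) (V : Fin N → Fin 6) (k : Fin 6),
      mon B e (t.pcol x y) (t.pfl x y) (Function.update V o k)
        = mon B e (t.pcol x y) (t.pfl x y) V := by
    intro e V k
    unfold mon
    simp only [hpt]
  have h1 : ∀ e : Fin c ↪ Fin m, ∑ v : Fin N → Fin 6, (6⁻¹ : ℂ) ^ N * (6⁻¹ : ℂ) ^ N *
      ∑ u : Fin N → Fin 6, ∑ u' : Fin N → Fin 6, ek t B e x y (mix (fun p => !t.rt p) v u)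
        (mix (fun p => !t.rt p) v u')
      = (∑ V, fg B e (t.pcol x y) lab0 (t.pfl x y) V * ((kMain t x y).map fun p =>
          ipo B (pt e (t.pcol x y) V p.1) (pt e (t.pcol x y) V p.2)).prod)
        + ((m : ℂ) - 1) / 6 * (∑ V, fg B e (t.pcol x y) lab0 (t.pfl x y) V *
          ((kTr t x y).map fun p =>
          ipo B (pt e (t.pcol x y) V p.1) (pt e (t.pcol x y) V p.2)).prod)
        - 6 * ∑ j, G e j := by
    intro e
    rw [two_mix t ht _ fun v v' w w' h h' => ek_congr t e x y hx.cl hy.cl v v' w w' h h']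
    have h2 : ∀ V : Fin N → Fin 6, ek t B e x y V (V ∘ t.ι)
        = fg B e (t.pcol x y) lab0 (t.pfl x y) V * ((kMain t x y).map fun p =>
          ipo B (pt e (t.pcol x y) V p.1) (pt e (t.pcol x y) V p.2)).prod
        + ((m : ℂ) - 1) / 6 * (fg B e (t.pcol x y) lab0 (t.pfl x y) V *
          ((kTr t x y).map fun p =>
          ipo B (pt e (t.pcol x y) V p.1) (pt e (t.pcol x y) V p.2)).prod)
        - ∑ j, ∑ a, mon B e (t.pcol x y) (t.pfl x y) V *
      (ipo B (pt e (t.pcol x y) V (t.ι (y.kt 0))) (some (j, a))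
        * ipo B (some (j, a)) (pt e (t.pcol x y) V (x.kt 0))
        * (ipo B (pt e (t.pcol x y) V (x.br 0)) (some (j, a))
          * ipo B (some (j, a)) (pt e (t.pcol x y) V (t.ι (y.br 0))))) := by
      intro V
      rw [ek_prod hB t ht e x y hx.cl hy.cl]
      unfold EK
      simp only [hv_vc, vec_vc]
      rw [fg0, Fintype.sum_prod_type]
      simp only [kMain, kTr, List.map_cons, List.map_nil, List.prod_cons, List.prod_nil, mul_one]
      simp only [← Finset.mul_sum]
      ring
    simp only [h2]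
    rw [Finset.sum_sub_distrib, Finset.sum_add_distrib, ← Finset.mul_sum]
    congr 1
    rw [Finset.sum_comm, Finset.mul_sum]
    refine Finset.sum_congr rfl fun j _ => ?_
    rw [slot_sum o (fun V a => mon B e (t.pcol x y) (t.pfl x y) V *
      (ipo B (pt e (t.pcol x y) V (t.ι (y.kt 0))) (some (j, a))
        * ipo B (some (j, a)) (pt e (t.pcol x y) V (x.kt 0))
        * (ipo B (pt e (t.pcol x y) V (x.br 0)) (some (j, a))
          * ipo B (some (j, a)) (pt e (t.pcol x y) V (t.ι (y.br 0))))))]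
    intro V k a
    simp only [hpt, hmon]
  have hG : ∀ e e' : Fin c → Fin m, e ⟨0, by omega⟩ = e' ⟨0, by omega⟩ →
      e ⟨1, by omega⟩ = e' ⟨1, by omega⟩ → ∀ j, G e j = G e' j := by
    intro e e' h0 h1 j
    have h2 : ∀ (V : Fin N → Fin 6) p, pt e (t.pcol x y) V p = pt e' (t.pcol x y) V p := by
      intro V p
      unfold pt
      cases hp : t.pcol x y p with
      | none => rfl
      | some k =>
        have hk := hcol p k hp
        have h3 : e k = e' k := by
          have h4 : k = ⟨0, by omega⟩ ∨ k = ⟨1, by omega⟩ := by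
            rcases Nat.lt_or_ge (k : ℕ) 1 with h5 | h5
            · left; apply Fin.ext; show (k : ℕ) = 0; omega
            · right; apply Fin.ext; show (k : ℕ) = 1; omega
          rcases h4 with h4 | h4
          · rw [h4]; exact h0
          · rw [h4]; exact h1
        simp [h3]
    have h3 : ∀ V : Fin N → Fin 6, mon B e (t.pcol x y) (t.pfl x y) V
        = mon B e' (t.pcol x y) (t.pfl x y) V := by
      intro V
      unfold mon
      simp only [h2]
    show (∑ V : Fin N → Fin 6, _) = ∑ V : Fin N → Fin 6, _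
    simp only [h2, h3]
  have h3 : ∀ (e : Fin c → Fin m) (k : Fin c), G e (e k)
      = ∑ V, fg B e (cDg t o x y k) lab0 (t.pfl x y) V * ((kDg t o x y).map fun p =>
          ipo B (pt e (cDg t o x y k) V p.1) (pt e (cDg t o x y k) V p.2)).prod := by
    intro e k
    refine Finset.sum_congr rfl fun V _ => ?_
    have h4 : ∀ p, p ≠ o → pt e (cDg t o x y k) V p = pt e (t.pcol x y) V p := by
      intro p hp
      unfold pt cDg
      rw [Function.update_of_ne hp]
    have h5 : pt e (cDg t o x y k) V o = some (e k, V o) := by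
      unfold pt cDg
      rw [Function.update_self]; rfl
    have h6 : mon B e (cDg t o x y k) (t.pfl x y) V = mon B e (t.pcol x y) (t.pfl x y) V := by
      unfold mon
      refine Finset.prod_congr rfl fun p _ => Finset.prod_congr rfl fun q _ => ?_
      by_cases hp : p = o
      · have h7 : t.pfl x y p q = 0 := by
          unfold Lty.pfl
          rw [hp, hoo, (hx.fo q).1, (hy.fo _).1]; rfl
        rw [h7, zpow_zero, zpow_zero]
      · by_cases hq : q = o
        · have h7 : t.pfl x y p q = 0 := by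
            unfold Lty.pfl
            rw [hq, hoo, (hx.fo p).2, (hy.fo _).2]; rfl
          rw [h7, zpow_zero, zpow_zero]
        · rw [h4 p hp, h4 q hq]
    rw [fg0, h6]
    simp only [kDg, List.map_cons, List.map_nil, List.prod_cons, List.prod_nil, mul_one]
    rw [h4 _ hko, h4 _ hbo, h4 _ hx.ko, h4 _ hx.bo, h5]
    ring
  have h4 := col_sum hc G hG
  unfold ME av
  simp only [h1]
  rw [Finset.sum_sub_distrib, Finset.sum_add_distrib, ← Finset.mul_sum, ← Finset.mul_sum, h4]
  simp only [h3]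
  have h7 : ((m : ℂ) - 1) / 6 = ((((m : ℝ) - 1) / 6 : ℝ) : ℂ) := by push_cast; ring
  have h8 : ((m : ℂ) - 2) = (((m : ℝ) - 2 : ℝ) : ℂ) := by push_cast; ring
  have e1 : ∀ (w S0 S1 S2 S3 S4 : ℂ), w * (S0 + ((m : ℂ) - 1) / 6 * S1
      - 6 * (S2 + S3 + ((m : ℂ) - 2) * S4))
      = w * S0 + ((((m : ℝ) - 1) / 6 : ℝ) : ℂ) * (w * S1) - ((6 : ℝ) : ℂ) * (w * S2)
        - ((6 : ℝ) : ℂ) * (w * S3) - ((6 * ((m : ℝ) - 2) : ℝ) : ℂ) * (w * S4) := by
    intro w S0 S1 S2 S3 S4
    push_cast; ring
  rw [e1]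
  unfold gve av
  rw [Complex.sub_re, Complex.sub_re, Complex.sub_re, Complex.add_re, Complex.re_ofReal_mul,
    Complex.re_ofReal_mul, Complex.re_ofReal_mul, Complex.re_ofReal_mul]

end Vale.Agent.P355.H790
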