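import Vale.Agent.P355.H790.Pk2
import Vale.Agent.P355.H693.GChk

/-! The packing block: kernel reduction of inner product brackets. -/

namespace Vale.Agent.P355.H790

open Finset Matrix Vale.Agent.P355 Vale.Agent.P355.H147 Vale.Agent.P355.H693
open Vale.Agent.P355.H129 (force force_eq)
open Vale.Agent.P355.H387 (seq seq_eq AT upd)

variable {m c : ℕ} {B : Fin m → M6}

/-- slots. -/
def fi (n : ℕ) : Fin 8 := ⟨n % 8, Nat.mod_lt _ (by norm_num)⟩

theorem fi_inj {a b : ℕ} (ha : a < 8) (hb : b < 8) : fi a = fi b ↔ a = b := by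
  unfold fi
  rw [Fin.mk.injEq, Nat.mod_eq_of_lt ha, Nat.mod_eq_of_lt hb]

theorem fi_val (p : Fin 8) : fi (p : ℕ) = p := Fin.ext (Nat.mod_eq_of_lt p.2)

theorem val_fi {a : ℕ} (ha : a < 8) : ((fi a : Fin 8) : ℕ) = a := Nat.mod_eq_of_lt ha

/-- colours. -/
def colW (c : ℕ) (w : ℕ → ℕ) : Fin 8 → Option (Fin c) := fun p => w2c c (w p)

/-- flows. -/
def flW (f : ℕ → ℕ → ℕ) : Fin 8 → Fin 8 → ℤ := fun p q => (f p q : ℤ)

/-- brackets. -/
def kW (K : List (ℕ × ℕ)) : List (Fin 8 × Fin 8) := K.map fun z => (fi z.1, fi z.2)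

/-- value of a graph with brackets. -/
noncomputable def gN (B : Fin m → M6) (c : ℕ) (w : ℕ → ℕ) (f : ℕ → ℕ → ℕ) (K : List (ℕ × ℕ)) : ℂ :=
  gve B (colW c w) lab0 (flW f) (kW K)

/-- erase a slot. -/
def erN (w : ℕ → ℕ) (p a : ℕ) : ℕ := cond (Nat.beq a p) 0 (w a)

/-- merge `x` into `t`. -/
def mrN (f : ℕ → ℕ → ℕ) (x t a b : ℕ) : ℕ :=
  cond (Nat.beq a t) (cond (Nat.beq b t) (Nat.add (Nat.add (f a b) (f x b)) (f a x))
    (Nat.add (f a b) (f x b))) (cond (Nat.beq b t) (Nat.add (f a b) (f a x)) (f a b))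

/-- add a unit of flow. -/
def adN (f : ℕ → ℕ → ℕ) (p q a b : ℕ) : ℕ :=
  cond (and (Nat.beq a p) (Nat.beq b q)) (Nat.succ (f a b)) (f a b)

/-- replace `p` by `q` in the values. -/
def rhN (r : ℕ → ℕ) (p q z : ℕ) : ℕ := force (r z) fun a => cond (Nat.beq a p) q a

theorem beq_dec (a b : ℕ) : Nat.beq a b = decide (a = b) := by
  by_cases h : a = b
  · subst h; simp
  · rw [decide_eq_false h]
    cases h1 : Nat.beq a b
    · rfl
    · exact absurd (Nat.eq_of_beq_eq_true h1) h

theorem colW_er (w : ℕ → ℕ) {p : ℕ} (hp : p < 8) : colW c (erN w p) = era (colW c w) (fi p) := by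
  funext a
  unfold colW era erN
  rw [beq_dec]
  by_cases h : (a : ℕ) = p
  · have : a = fi p := by rw [← h, fi_val]
    rw [this, Function.update_self, val_fi hp, decide_eq_true rfl, cond_true,
      w2c_none (by norm_num)]
  · have : a ≠ fi p := by
      intro h'
      apply h
      rw [h', val_fi hp]
    rw [Function.update_of_ne this, decide_eq_false h, cond_false]

theorem flW_mr (f : ℕ → ℕ → ℕ) {x t : ℕ} (hx : x < 8) (ht : t < 8) :
    flW (mrN f x t) = mrg (flW f) (fi x) (fi t) := by
  funext a b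
  unfold flW mrg mrN
  rw [beq_dec, beq_dec]
  have h1 : ∀ a : Fin 8, ((a : ℕ) = t) ↔ a = fi t := by
    intro a
    constructor
    · intro h; rw [← h, fi_val]
    · intro h; rw [h, val_fi ht]
  have e1 : decide ((a : ℕ) = t) = decide (a = fi t) := decide_eq_decide.2 (h1 a)
  have e2 : decide ((b : ℕ) = t) = decide (b = fi t) := decide_eq_decide.2 (h1 b)
  rw [e1, e2]
  by_cases ha : a = fi t <;> by_cases hb : b = fi t <;> simp [ha, hb, val_fi ht, val_fi hx]

theorem flW_ad (f : ℕ → ℕ → ℕ) {p q : ℕ} (hp : p < 8) (hq : q < 8) :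
    flW (adN f p q) = addE (flW f) (fi p) (fi q) := by
  funext a b
  unfold flW addE adN
  rw [beq_dec, beq_dec]
  have h1 : ∀ (a : Fin 8) (t : ℕ), t < 8 → (((a : ℕ) = t) ↔ a = fi t) := by
    intro a t ht
    constructor
    · intro h; rw [← h, fi_val]
    · intro h; rw [h, val_fi ht]
  have e1 : decide ((a : ℕ) = p) = decide (a = fi p) := decide_eq_decide.2 (h1 a p hp)
  have e2 : decide ((b : ℕ) = q) = decide (b = fi q) := decide_eq_decide.2 (h1 b q hq)
  rw [e1, e2]
  by_cases ha : a = fi p <;> by_cases hb : b = fi q <;> simp [ha, hb]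

theorem colW_ne {w : ℕ → ℕ} {p : ℕ} (hp : p < 8) (h : okW c (w p) = true) :
    colW c w (fi p) ≠ none := by
  unfold colW
  rw [val_fi hp]
  exact okW_ne h

theorem r6_ne : r6 ≠ 0 := by
  intro h
  have := r6_sq
  rw [h] at this
  norm_num at this

/-! ### The reduction -/

/-- process the brackets: `r` = substitution, `w` = words, `f` = flows, `s` = number of mergings,
`e` = number of added units of flow. -/
def red (c : ℕ) (K : List (ℕ × ℕ)) : (ℕ → ℕ) → (ℕ → ℕ) → (ℕ → ℕ → ℕ) → ℕ → ℕ →
    ((ℕ → ℕ) → (ℕ → ℕ → ℕ) → ℕ → ℕ → Bool) → Bool :=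
  List.rec (motive := fun _ => (ℕ → ℕ) → (ℕ → ℕ) → (ℕ → ℕ → ℕ) → ℕ → ℕ →
    ((ℕ → ℕ) → (ℕ → ℕ → ℕ) → ℕ → ℕ → Bool) → Bool)
    (fun _ w f s e k => k w f s e)
    (fun b _ ih r w f s e k =>
      force (r b.1) fun p => force (r b.2) fun q =>
        force (w p) fun wp => force (w q) fun wq =>
          and (and (okW c wp) (okW c wq))
            (cond (Nat.beq p q) (ih r w f s e k)
              (cond (Nat.beq (Nat.div wp 2) (Nat.div wq 2))
                (ih (rhN r p q) (erN w p) (mrN f p q) (Nat.succ s) e k)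
                (ih r w (adN f p q) s (Nat.succ e) k)))) K

/-- brackets after substitution. -/
def sK (r : ℕ → ℕ) (K : List (ℕ × ℕ)) : List (ℕ × ℕ) := K.map fun z => (r z.1, r z.2)

theorem red_spec (hB : IsMUBs B) (k : (ℕ → ℕ) → (ℕ → ℕ → ℕ) → ℕ → ℕ → Bool) :
    ∀ (K : List (ℕ × ℕ)) (r w : ℕ → ℕ) (f : ℕ → ℕ → ℕ) (s e : ℕ),
      (∀ z < 8, r z < 8) → (∀ z ∈ K, z.1 < 8 ∧ z.2 < 8) → (∀ p, w p % 2 = 0) →
      red c K r w f s e k = true →
      ∃ w' f' s' e', k w' f' s' e' = true ∧ (∀ p, w' p % 2 = 0) ∧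
        r6 ^ e' * 6 ^ s' * gN B c w f (sK r K) = r6 ^ e * 6 ^ s * gv B (colW c w') lab0 (flW f') := by
  intro K
  induction K with
  | nil =>
    intro r w f s e hr hK hw h
    refine ⟨w, f, s, e, h, hw, ?_⟩
    unfold gN sK kW
    rw [List.map_nil, List.map_nil, gve_nil]
  | cons b K ih =>
    intro r w f s e hr hK hw h
    have hstep : red c (b :: K) r w f s e k = force (r b.1) fun p => force (r b.2) fun q =>
        force (w p) fun wp => force (w q) fun wq =>
          and (and (okW c wp) (okW c wq))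
            (cond (Nat.beq p q) (red c K r w f s e k)
              (cond (Nat.beq (Nat.div wp 2) (Nat.div wq 2))
                (red c K (rhN r p q) (erN w p) (mrN f p q) (Nat.succ s) e k)
                (red c K r w (adN f p q) s (Nat.succ e) k))) := rfl
    rw [hstep] at h
    simp only [force_eq] at h
    rw [Bool.and_eq_true, Bool.and_eq_true] at h
    obtain ⟨⟨hp, hq⟩, h⟩ := h
    obtain ⟨hb1, hb2⟩ := hK b (by simp)
    have hK' : ∀ z ∈ K, z.1 < 8 ∧ z.2 < 8 := fun z hz => hK z (by simp [hz])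
    set p := r b.1 with hpd
    set q := r b.2 with hqd
    have hp8 : p < 8 := hr _ hb1
    have hq8 : q < 8 := hr _ hb2
    have hcp := colW_ne hp8 hp
    have hcq := colW_ne hq8 hq
    have e1 : gN B c w f (sK r (b :: K))
        = gve B (colW c w) lab0 (flW f) ((fi p, fi q) :: kW (sK r K)) := rfl
    rw [e1]
    rw [beq_dec] at h
    by_cases hpq : p = q
    · rw [decide_eq_true hpq, cond_true] at h
      obtain ⟨w', f', s', e', h1, h2, h3⟩ := ih r w f s e hr hK' hw h
      refine ⟨w', f', s', e', h1, h2, ?_⟩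
      rw [hpq, gve_self hB _ _ _ hcq]
      exact h3
    · rw [decide_eq_false hpq, cond_false, beq_dec] at h
      have hne : (fi p : Fin 8) ≠ fi q := fun h' => hpq ((fi_inj hp8 hq8).1 h')
      by_cases hcol : Nat.div (w p) 2 = Nat.div (w q) 2
      · rw [decide_eq_true hcol, cond_true] at h
        have hr' : ∀ z < 8, rhN r p q z < 8 := by
          intro z hz
          unfold rhN
          rw [force_eq]
          cases Nat.beq (r z) p
          · exact hr z hz
          · exact hq8
        have hw' : ∀ a, erN w p a % 2 = 0 := by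
          intro a
          unfold erN
          cases Nat.beq a p
          · exact hw a
          · rfl
        obtain ⟨w', f', s', e', h1, h2, h3⟩ := ih (rhN r p q) (erN w p) (mrN f p q) _ e hr' hK' hw' h
        refine ⟨w', f', s', e', h1, h2, ?_⟩
        have hcc : colW c w (fi p) = colW c w (fi q) := by
          unfold colW
          rw [val_fi hp8, val_fi hq8]
          exact w2c_congr hcol
        have h4 := gve_mrg hB (colW c w) (flW f) (fi p) (fi q) hne hcp hcc (lab := lab0) rfl
          (kW (sK r K))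
        have h5 : (kW (sK r K)).map (fun z => (sbs (fi p) (fi q) z.1, sbs (fi p) (fi q) z.2))
            = kW (sK (rhN r p q) K) := by
          unfold kW sK
          rw [List.map_map, List.map_map, List.map_map]
          refine List.map_congr_left fun z hz => ?_
          have h6 : ∀ a < 8, sbs (fi p) (fi q) (fi (r a)) = fi (rhN r p q a) := by
            intro a ha
            unfold sbs rhN
            rw [force_eq, beq_dec]
            by_cases h7 : r a = p
            · rw [if_pos (by rw [h7]), decide_eq_true h7, cond_true]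
            · rw [if_neg (fun h' => h7 ((fi_inj (hr a ha) hp8).1 h')), decide_eq_false h7,
                cond_false]
          simp only [Function.comp]
          rw [h6 _ (hK' z hz).1, h6 _ (hK' z hz).2]
        rw [h5, ← colW_er w hp8, ← flW_mr f hp8 hq8] at h4
        have h7 : gN B c (erN w p) (mrN f p q) (sK (rhN r p q) K)
            = gve B (colW c (erN w p)) lab0 (flW (mrN f p q)) (kW (sK (rhN r p q) K)) := rfl
        rw [h7, ← h4] at h3
        have h8 : (6 : ℂ) ≠ 0 := by norm_num
        apply mul_left_cancel₀ h8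
        calc 6 * (r6 ^ e' * 6 ^ s' * gve B (colW c w) lab0 (flW f) ((fi p, fi q) :: kW (sK r K)))
            = r6 ^ e' * 6 ^ s' * (6 * gve B (colW c w) lab0 (flW f)
              ((fi p, fi q) :: kW (sK r K))) := by ring
          _ = r6 ^ e * 6 ^ (s + 1) * gv B (colW c w') lab0 (flW f') := h3
          _ = _ := by rw [pow_succ]; ring
      · rw [decide_eq_false hcol, cond_false] at h
        obtain ⟨w', f', s', e', h1, h2, h3⟩ := ih r w (adN f p q) s _ hr hK' hw h
        refine ⟨w', f', s', e', h1, h2, ?_⟩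
        have hcc : colW c w (fi p) ≠ colW c w (fi q) := by
          unfold colW
          rw [val_fi hp8, val_fi hq8]
          exact w2c_ne hp hq hcol
        have h4 := gve_flow hB (colW c w) (flW f) (fi p) (fi q) hcp hcq hcc (lab := lab0)
          (kW (sK r K))
        rw [← flW_ad f hp8 hq8] at h4
        have h7 : gN B c w (adN f p q) (sK r K)
            = gve B (colW c w) lab0 (flW (adN f p q)) (kW (sK r K)) := rfl
        rw [h7, ← h4] at h3
        apply mul_left_cancel₀ r6_ne
        calc r6 * (r6 ^ e' * 6 ^ s' * gve B (colW c w) lab0 (flW f)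
              ((fi p, fi q) :: kW (sK r K)))
            = r6 ^ e' * 6 ^ s' * (r6 * gve B (colW c w) lab0 (flW f)
              ((fi p, fi q) :: kW (sK r K))) := by ring
          _ = r6 ^ (e + 1) * 6 ^ s * gv B (colW c w') lab0 (flW f') := h3
          _ = _ := by rw [pow_succ]; ring

end Vale.Agent.P355.H790
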