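import Vale.Agent.P355.H790.Pk3
import Vale.Agent.P355.H693.Fin5

/-! The packing block: checked products. -/

namespace Vale.Agent.P355.H790

open Finset Matrix Vale.Agent.P355 Vale.Agent.P355.H147 Vale.Agent.P355.H693
open Vale.Agent.P355.H129 (force force_eq)
open Vale.Agent.P355.H387 (seq seq_eq AT upd)

variable {m c : ℕ} {B : Fin m → M6}

/-! ### Types and flags given by numbers -/

/-- admissible slots of a flag: `0, 1, 7` (labels), `2, 3` (internals). -/
def okN (p : ℕ) : Bool := Nat.beq (Nat.mod (Nat.shiftRight 143 p) 2) 1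

/-- exchange of the internals of the two factors. -/
def iN (p : ℕ) : ℕ := nib 1983009808 p

/-- root slots `0, 1, 6, 7`. -/
def rN (p : ℕ) : Bool := Nat.beq (Nat.mod (Nat.shiftRight 195 p) 2) 1

/-- slots `2, 3`. -/
def lN (p : ℕ) : Bool := Nat.beq (Nat.mod (Nat.shiftRight 12 p) 2) 1

/-- exchange of the internals. -/
def ιP : Equiv.Perm (Fin 8) := Equiv.swap 2 4 * Equiv.swap 3 5

/-- the type with root words `Z`. -/
def tyP (c Z : ℕ) : Lty 8 c where
  T := fun p => w2c c (cond (Nat.beq p 6) 0 (cond (rN p) (wdN Z p) 0))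
  lab := lab0
  rt := fun p => rN p
  L := fun p => lN p
  ι := ιP

theorem iN_eq : ∀ p : Fin 8, iN p = ((ιP p : Fin 8) : ℕ) := by decide

theorem tyP_ok (Z : ℕ) : (tyP c Z).Ok where
  inv := by
    have h : ∀ p : Fin 8, ιP (ιP p) = p := by decide
    exact h
  rι := by
    have h : ∀ p : Fin 8, rN p = true → ιP p = p := by decide
    exact h
  Lr := by
    have h : ∀ p : Fin 8, lN p = true → rN p = false := by decide
    exact h
  LR := by
    have h : ∀ p : Fin 8, lN p = true → lN (ιP p) = false := by decide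
    exact h
  ln := by intro p _; rfl

/-- flows of a flag. -/
def fX (X p q : ℕ) : ℕ := cond (and (okN p) (okN q)) (nib X (Nat.add (Nat.mul 8 p) q)) 0
/-- words. -/
def WX (X : ℕ) : ℕ := Nat.shiftRight X 256
/-- ket. -/
def kX (X : ℕ) : ℕ := nib X 72
/-- bra. -/
def bX (X : ℕ) : ℕ := nib X 73
/-- parity. -/
def pX (X : ℕ) : ℕ := Nat.mod (Nat.shiftRight X 296) 2

/-- the flag of a number. -/
def fLF (c X : ℕ) : LFlg 8 c 1 1 where
  col := fun p => w2c c (wdN (WX X) p)
  fl := fun p q => (fX X p q : ℤ)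
  kt := fun _ => fi (kX X)
  br := fun _ => fi (bX X)

/-- admissible words. -/
def okw (a : ℕ) : Bool := or (Nat.beq a 0) (or (Nat.beq a 2) (Nat.beq a 4))

/-- check of a flag. -/
def fOK (X : ℕ) : Bool :=
  and (and (okN (kX X)) (okN (bX X))) (and (okw (wdN (WX X) 2)) (okw (wdN (WX X) 3)))

/-- check of the root words. -/
def zOK (Z : ℕ) : Bool := and (okw (wdN Z 0)) (and (okw (wdN Z 1)) (okw (wdN Z 7)))

theorem okN_lt {p : ℕ} (h : okN p = true) : p < 8 := by
  by_contra h1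
  have h2 : 143 >>> p = 0 := by
    rw [Nat.shiftRight_eq_div_pow]
    apply Nat.div_eq_of_lt
    calc 143 < 2 ^ 8 := by norm_num
      _ ≤ 2 ^ p := Nat.pow_le_pow_right (by norm_num) (by omega)
  unfold okN at h
  have h3 : Nat.mod (Nat.shiftRight 143 p) 2 = 1 := Nat.eq_of_beq_eq_true h
  have h4 : Nat.shiftRight 143 p = 0 := h2
  rw [h4] at h3
  exact absurd h3 (by decide)

theorem okN_fin : ∀ p : Fin 8, okN p = true → p ≠ 6 ∧ (rN p = true ∨ lN p = true) := by decide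

theorem okN_fin' : ∀ p : Fin 8, rN p = false → lN p = false → okN p = false := by decide

theorem fLF_clean {X Z : ℕ} (h : fOK X = true) : Avd (tyP c Z) (6 : Fin 8) (fLF c X) := by
  unfold fOK at h
  simp only [Bool.and_eq_true] at h
  obtain ⟨⟨h1, h2⟩, h3, h4⟩ := h
  have hk : okN (fi (kX X) : Fin 8) = true := by rw [val_fi (okN_lt h1)]; exact h1
  have hb : okN (fi (bX X) : Fin 8) = true := by rw [val_fi (okN_lt h2)]; exact h2
  refine ⟨⟨?_, ?_, ?_⟩, ?_, ?_, ?_⟩
  · intro p hr hL q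
    have h5 : okN p = false := okN_fin' p hr hL
    constructor
    · show ((fX X p q : ℕ) : ℤ) = 0
      unfold fX; rw [h5, Bool.false_and]; rfl
    · show ((fX X q p : ℕ) : ℤ) = 0
      unfold fX; rw [h5, Bool.and_false]; rfl
  · intro i; exact (okN_fin _ hk).2
  · intro i; exact (okN_fin _ hb).2
  · intro q
    have h5 : okN (6 : Fin 8) = false := by decide
    constructor
    · show ((fX X (6 : Fin 8) q : ℕ) : ℤ) = 0
      unfold fX; rw [h5, Bool.false_and]; rfl
    · show ((fX X q (6 : Fin 8) : ℕ) : ℤ) = 0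
      unfold fX; rw [h5, Bool.and_false]; rfl
  · exact (okN_fin _ hk).1
  · exact (okN_fin _ hb).1

/-! ### Products -/

/-- words of a product. -/
def wP (Z X Y wu p : ℕ) : ℕ :=
  cond (Nat.beq p 6) wu (cond (rN p) (wdN Z p) (cond (lN p) (wdN (WX X) p)
    (cond (lN (iN p)) (wdN (WX Y) (iN p)) 0)))

/-- flows of a product. -/
def fP (X Y a b : ℕ) : ℕ := Nat.add (fX X a b) (fX Y (iN b) (iN a))

theorem slot_facts : ∀ p : Fin 8, (rN p = true → Nat.beq p 6 = false ∨ p = 6) ∧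
    (Nat.beq (p : ℕ) 6 = true → p = 6) ∧ (rN p = false → Nat.beq p 6 = false) ∧
    (rN p = false → lN p = false → rN (ιP p) = false) := by decide

theorem cond_w2c (b : Bool) (a d : ℕ) :
    w2c c (cond b a d) = if b = true then w2c c a else w2c c d := by
  cases b <;> rfl

theorem pcol_wP (Z X Y : ℕ) : (tyP c Z).pcol (fLF c X) (fLF c Y) = colW c (wP Z X Y 0) := by
  funext p
  obtain ⟨-, -, h3, h4⟩ := slot_facts p
  show (if rN p = true then w2c c (cond (Nat.beq p 6) 0 (cond (rN p) (wdN Z p) 0))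
    else if lN p = true then w2c c (wdN (WX X) p)
    else if rN (ιP p) = true then w2c c (cond (Nat.beq (ιP p : Fin 8) 6) 0
        (cond (rN (ιP p : Fin 8)) (wdN Z (ιP p : Fin 8)) 0))
      else if lN (ιP p) = true then w2c c (wdN (WX Y) (ιP p : Fin 8)) else none)
    = w2c c (wP Z X Y 0 p)
  unfold wP
  rw [iN_eq]
  cases hr : rN (p : ℕ)
  · rw [h3 hr]
    cases hl : lN (p : ℕ)
    · rw [h4 hr hl]
      simp only [Bool.false_eq_true, if_false, cond_false]
      cases hi : lN ((ιP p : Fin 8) : ℕ)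
      · simp only [Bool.false_eq_true, if_false, cond_false]
        rw [w2c_none (by norm_num)]
      · simp
    · simp
  · simp

theorem cDg_wP (Z X Y : ℕ) (k : Fin c) {wu : ℕ} (hw : w2c c wu = some k) :
    cDg (tyP c Z) 6 (fLF c X) (fLF c Y) k = colW c (wP Z X Y wu) := by
  funext p
  unfold cDg
  by_cases hp : p = 6
  · rw [hp, Function.update_self, ← hw]; rfl
  · rw [Function.update_of_ne hp, pcol_wP]
    have h : Nat.beq (p : ℕ) 6 = false := by
      cases h1 : Nat.beq (p : ℕ) 6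
      · rfl
      · exact absurd ((slot_facts p).2.1 h1) hp
    unfold colW wP
    rw [h, cond_false, cond_false]

theorem pfl_net (Z X Y : ℕ) (p q : Fin 8) :
    (tyP c Z).pfl (fLF c X) (fLF c Y) p q - (tyP c Z).pfl (fLF c X) (fLF c Y) q p
      = flW (fP X Y) p q - flW (fP X Y) q p := by
  unfold Lty.pfl flW fP
  rw [iN_eq, iN_eq]
  show ((fX X p q : ℕ) : ℤ) - (fX Y (ιP p : Fin 8) (ιP q : Fin 8) : ℕ)
    - (((fX X q p : ℕ) : ℤ) - (fX Y (ιP q : Fin 8) (ιP p : Fin 8) : ℕ)) = _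
  simp only [Nat.add_eq]
  push_cast
  ring

/-- brackets. -/
def kMn (X Y : ℕ) : List (ℕ × ℕ) := [(iN (kX Y), kX X), (bX X, iN (bX Y))]
/-- brackets. -/
def kTn (X Y : ℕ) : List (ℕ × ℕ) := [(iN (kX Y), iN (bX Y)), (bX X, kX X)]
/-- brackets. -/
def kDn (X Y : ℕ) : List (ℕ × ℕ) := [(iN (kX Y), 6), (6, kX X), (bX X, 6), (6, iN (bX Y))]

theorem iN_fi {a : ℕ} (ha : a < 8) (Z : ℕ) : fi (iN a) = (tyP c Z).ι (fi a) := by
  have h := iN_eq (fi a)
  rw [val_fi ha] at h
  rw [h, fi_val]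
  rfl

theorem iN_lt {a : ℕ} : iN a < 16 := Nat.mod_lt _ (by norm_num)

theorem iN_lt8 {a : ℕ} (ha : a < 8) : iN a < 8 := by
  have h := iN_eq (fi a)
  rw [val_fi ha] at h
  rw [h]; exact Fin.isLt _

section prod

variable {Z X Y : ℕ}

theorem gve_main (hX : fOK X = true) (hY : fOK Y = true) (hB : IsMUBs B) :
    gve B ((tyP c Z).pcol (fLF c X) (fLF c Y)) lab0 ((tyP c Z).pfl (fLF c X) (fLF c Y))
      (kMain (tyP c Z) (fLF c X) (fLF c Y)) = gN B c (wP Z X Y 0) (fP X Y) (kMn X Y) := by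
  rw [gve_congr hB _ _ (flW (fP X Y)) _ fun p q _ _ _ => pfl_net Z X Y p q]
  unfold fOK at hX hY
  simp only [Bool.and_eq_true] at hX hY
  have h1 := okN_lt hX.1.1
  have h2 := okN_lt hX.1.2
  have h3 := okN_lt hY.1.1
  have h4 := okN_lt hY.1.2
  unfold gN kW kMn kMain
  rw [pcol_wP]
  simp only [List.map_cons, List.map_nil]
  rw [iN_fi (c := c) h3 Z, iN_fi (c := c) h4 Z]
  rfl

theorem gve_tr (hX : fOK X = true) (hY : fOK Y = true) (hB : IsMUBs B) :
    gve B ((tyP c Z).pcol (fLF c X) (fLF c Y)) lab0 ((tyP c Z).pfl (fLF c X) (fLF c Y))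
      (kTr (tyP c Z) (fLF c X) (fLF c Y)) = gN B c (wP Z X Y 0) (fP X Y) (kTn X Y) := by
  rw [gve_congr hB _ _ (flW (fP X Y)) _ fun p q _ _ _ => pfl_net Z X Y p q]
  unfold fOK at hX hY
  simp only [Bool.and_eq_true] at hX hY
  have h1 := okN_lt hX.1.1
  have h2 := okN_lt hX.1.2
  have h3 := okN_lt hY.1.1
  have h4 := okN_lt hY.1.2
  unfold gN kW kTn kTr
  rw [pcol_wP]
  simp only [List.map_cons, List.map_nil]
  rw [iN_fi (c := c) h3 Z, iN_fi (c := c) h4 Z]
  rfl

theorem gve_dg (hX : fOK X = true) (hY : fOK Y = true) (hB : IsMUBs B) (k : Fin c) {wu : ℕ}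
    (hw : w2c c wu = some k) :
    gve B (cDg (tyP c Z) 6 (fLF c X) (fLF c Y) k) lab0 ((tyP c Z).pfl (fLF c X) (fLF c Y))
      (kDg (tyP c Z) 6 (fLF c X) (fLF c Y)) = gN B c (wP Z X Y wu) (fP X Y) (kDn X Y) := by
  rw [gve_congr hB _ _ (flW (fP X Y)) _ fun p q _ _ _ => pfl_net Z X Y p q]
  unfold fOK at hX hY
  simp only [Bool.and_eq_true] at hX hY
  have h1 := okN_lt hX.1.1
  have h2 := okN_lt hX.1.2
  have h3 := okN_lt hY.1.1
  have h4 := okN_lt hY.1.2
  unfold gN kW kDn kDg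
  rw [cDg_wP Z X Y k hw]
  simp only [List.map_cons, List.map_nil]
  rw [iN_fi (c := c) h3 Z, iN_fi (c := c) h4 Z]
  rfl

theorem okw_c01 {a : ℕ} (h : okw a = true) {k : Fin c} (hk : w2c c a = some k) : (k : ℕ) < 2 := by
  unfold okw at h
  rw [Bool.or_eq_true, Bool.or_eq_true] at h
  have h1 : a ≤ 4 := by
    rcases h with h | h | h <;> · have := Nat.eq_of_beq_eq_true h; omega
  unfold w2c at hk
  by_cases h2 : 0 < a / 2 ∧ a / 2 - 1 < c
  · rw [dif_pos h2] at hk
    have := Option.some.inj hk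
    rw [← this]
    show a / 2 - 1 < 2
    omega
  · rw [dif_neg h2] at hk
    exact absurd hk (by simp)

theorem okw_even {a : ℕ} (h : okw a = true) : a % 2 = 0 := by
  unfold okw at h
  rw [Bool.or_eq_true, Bool.or_eq_true] at h
  rcases h with h | h | h <;> · have := Nat.eq_of_beq_eq_true h; omega

theorem slot_facts2 : ∀ p : Fin 8, p ≠ 6 → Nat.beq p 6 = false ∧
    (rN p = true → (p : ℕ) = 0 ∨ (p : ℕ) = 1 ∨ (p : ℕ) = 7) ∧
    (lN p = true → (p : ℕ) = 2 ∨ (p : ℕ) = 3) ∧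
    (lN (iN p) = true → iN p = 2 ∨ iN p = 3) := by decide

theorem wP_okw {wu : ℕ} (hZ : zOK Z = true) (hX : fOK X = true) (hY : fOK Y = true) (p : Fin 8)
    (hp : p ≠ 6) : okw (wP Z X Y wu p) = true := by
  unfold zOK at hZ
  unfold fOK at hX hY
  simp only [Bool.and_eq_true] at hZ hX hY
  obtain ⟨h1, h2, h3, h4⟩ := slot_facts2 p hp
  unfold wP
  rw [h1, cond_false]
  cases hr : rN (p : ℕ)
  · rw [cond_false]
    cases hl : lN (p : ℕ)
    · rw [cond_false]
      cases hi : lN (iN p)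
      · rfl
      · rw [cond_true]
        rcases h4 hi with h5 | h5 <;> rw [h5]
        · exact hY.2.1
        · exact hY.2.2
    · rw [cond_true]
      rcases h3 hl with h5 | h5 <;> rw [h5]
      · exact hX.2.1
      · exact hX.2.2
  · rw [cond_true]
    rcases h2 hr with h5 | h5 | h5 <;> rw [h5]
    · exact hZ.1
    · exact hZ.2.1
    · exact hZ.2.2

theorem c01_pcol (hZ : zOK Z = true) (hX : fOK X = true) (hY : fOK Y = true) :
    C01 ((tyP c Z).pcol (fLF c X) (fLF c Y)) := by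
  intro p k hk
  rw [pcol_wP] at hk
  by_cases hp : p = 6
  · rw [hp] at hk
    exact absurd hk (by
      show w2c c 0 ≠ some k
      rw [w2c_none (by norm_num)]; simp)
  · exact okw_c01 (wP_okw (wu := 0) hZ hX hY p hp) hk

/-- the kernel as a sum of five values. -/
theorem ME_num (hB : IsMUBs B) (hc : 3 ≤ c) (hZ : zOK Z = true) (hX : fOK X = true)
    (hY : fOK Y = true) :
    ME (tyP c Z) B (fLF c X) (fLF c Y) = (gN B c (wP Z X Y 0) (fP X Y) (kMn X Y)).re
      + ((m : ℝ) - 1) / 6 * (gN B c (wP Z X Y 0) (fP X Y) (kTn X Y)).re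
      - 6 * (gN B c (wP Z X Y 2) (fP X Y) (kDn X Y)).re
      - 6 * (gN B c (wP Z X Y 4) (fP X Y) (kDn X Y)).re
      - 6 * ((m : ℝ) - 2) * (gN B c (wP Z X Y 6) (fP X Y) (kDn X Y)).re := by
  have h0 : w2c c 2 = some ⟨0, by omega⟩ := by
    unfold w2c; rw [dif_pos ⟨by norm_num, by omega⟩]
  have h1 : w2c c 4 = some ⟨1, by omega⟩ := by
    unfold w2c; rw [dif_pos ⟨by norm_num, by omega⟩]
  have h2 : w2c c 6 = some ⟨2, by omega⟩ := by
    unfold w2c; rw [dif_pos ⟨by norm_num, by omega⟩]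
  rw [ME_eq hB (tyP_ok Z) hc (fLF_clean hX) (fLF_clean hY) (by rfl) (c01_pcol hZ hX hY)
    (by rw [pcol_wP]; exact w2c_none (w := 0) (by norm_num)), gve_main hX hY hB, gve_tr hX hY hB,
    gve_dg hX hY hB _ h0, gve_dg hX hY hB _ h1, gve_dg hX hY hB _ h2]

end prod

end Vale.Agent.P355.H790
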