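import Vale.Agent.P355.H790.Pk4

/-! The packing block: checked terms, accumulators, the final inequality. -/

namespace Vale.Agent.P355.H790

open Finset Matrix Vale.Agent.P355 Vale.Agent.P355.H147 Vale.Agent.P355.H693
open Vale.Agent.P355.H129 (force force_eq)
open Vale.Agent.P355.H387 (seq seq_eq AT upd)

variable {m c : ℕ} {B : Fin m → M6}

/-! ### Terms -/

/-- shifted net flows. -/
def gD (f : ℕ → ℕ → ℕ) (p q : ℕ) : ℕ := Nat.sub (Nat.add 96 (f p q)) (f q p)

theorem rck_ge {N K d t : ℕ} {s : Bool} {w : ℕ → ℕ} {g : ℕ → ℕ → ℕ}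
    (h : rck N c K d t s w g = true) (p q : ℕ) (hpq : p < q) (hq : q < N)
    (hp2 : ¬ w p < 2) (hq2 : ¬ w q < 2) : 64 ≤ g p q := by
  unfold rck at h
  rw [Bool.and_eq_true, Bool.and_eq_true, Bool.and_eq_true] at h
  obtain ⟨-, -, -, h4⟩ := h
  simp only [force_eq] at h4
  have h5 := allN_spec h4 q hq
  rw [Bool.and_eq_true, Bool.or_eq_true] at h5
  rcases h5.2 with h6 | h6
  · exact absurd (by simpa [Nat.blt_eq] using h6) hq2
  · have h7 := allN_spec h6 p hpq
    rw [Bool.or_eq_true] at h7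
    rcases h7 with h7 | h7
    · exact absurd (by simpa [Nat.blt_eq] using h7) hp2
    · have h8 := Nat.eq_of_beq_eq_true h7
      rw [h8]
      exact Nat.le_add_right _ _

theorem w2c_ge {a : ℕ} (h : w2c c a ≠ none) : ¬ a < 2 := fun h' => h (w2c_none h')

/-- recognition with directed flows. -/
theorem tck_dir (hB : IsMUBs B) {tab : ℕ → ℕ} {par T : ℕ} {w : ℕ → ℕ} {f : ℕ → ℕ → ℕ}
    (h : tck 8 c tab par w (gD f) T = true) (hw : ∀ p, w p % 2 = 0) :
    cv B 8 c (tab (tId T)) = pwp par * (gv B (colW c w) lab0 (flW f)).re := by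
  refine tck_spec hB (colW c w) lab0 (flW f) h (fun p => rfl) (fun p _ => ?_)
    (fun p q hpq hp hq => ?_)
  · unfold lab0
    rw [hw p]; rfl
  · have h1 : rck 8 c (tab (tId T)) (Nat.shiftRight T 53) (Nat.mod (Nat.shiftRight T 21) 4294967296)
        (Nat.beq (Nat.mod (Nat.shiftRight T 20) 2) 1) w (gD f) = true := by
      unfold tck at h
      simp only [force_eq] at h
      rw [Bool.and_eq_true] at h
      exact h.2
    have h2 := rck_ge h1 p q hpq q.2 (w2c_ge hp) (w2c_ge hq)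
    unfold net flW
    unfold gD at h2 ⊢
    simp only [Nat.sub_eq, Nat.add_eq] at h2 ⊢
    omega

theorem re_r6 (e s : ℕ) (z : ℂ) : (r6 ^ e * 6 ^ s * z).re = Real.sqrt 6 ^ e * 6 ^ s * z.re := by
  have h : r6 ^ e * (6 : ℂ) ^ s = ((Real.sqrt 6 ^ e * 6 ^ s : ℝ) : ℂ) := by
    unfold r6; push_cast; rfl
  rw [h, Complex.re_ofReal_mul]

theorem sqrt6_sq : Real.sqrt 6 ^ 2 = 6 := Real.sq_sqrt (by norm_num)

/-- put `lam` at a class, with a sign. -/
noncomputable def put (sg lam T S : ℕ) (P Q : AT) (k : ℕ → AT → AT → Bool) : Bool :=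
  seq (Nat.add S (Nat.succ lam)) fun S' =>
    Nat.rec (motive := fun _ => Bool) (ins1 lam T P fun P' => k S' P' Q)
      (fun _ _ => ins1 lam T Q fun Q' => k S' P Q') sg

/-- state of the two accumulators. -/
def St (g : ℕ → ℝ) (ct : GT) (S : ℕ) (P Q : AT) (D : ℝ) : Prop :=
  ∃ V W, AG g ct P S V ∧ AG g ct Q S W ∧ V - W = D

/-- sign of a natural number: `+` for zero. -/
noncomputable def sgR (sg : ℕ) : ℝ := if sg = 0 then 1 else -1

theorem put_sound {g : ℕ → ℝ} {ct : GT} {sg lam T S : ℕ} {P Q : AT} {D : ℝ}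
    (h : St g ct S P Q D) (k : ℕ → AT → AT → Bool) (hk : put sg lam T S P Q k = true) :
    ∃ S' P' Q', St g ct S' P' Q' (D + sgR sg * (lam * g (tabG ct (tId T)))) ∧
      k S' P' Q' = true := by
  obtain ⟨V, W, h1, h2, h3⟩ := h
  unfold put at hk
  rw [seq_eq] at hk
  have hS : Nat.add S (Nat.succ lam) = S + lam + 1 := rfl
  rw [hS] at hk
  cases sg with
  | zero =>
    obtain ⟨P', a1, a2⟩ := ins1_sound h1 _ _ _ hk
    exact ⟨_, P', Q, ⟨_, _, a1, h2.mono (by omega), by rw [← h3]; unfold sgR; simp; ring⟩, a2⟩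
  | succ sg =>
    obtain ⟨Q', a1, a2⟩ := ins1_sound h2 _ _ _ hk
    exact ⟨_, P, Q', ⟨_, _, h1.mono (by omega), a1, by rw [← h3]; unfold sgR; simp; ring⟩, a2⟩

/-- power of six of a term. -/
def cfN (pp e par s : ℕ) : ℕ :=
  Nat.pow 6 (Nat.div (Nat.sub (Nat.add 8 pp) (Nat.add (Nat.add e par) (Nat.mul 2 s))) 2)

/-- a checked term: `lam0 · 6^4 · √6^pp ·` value. -/
noncomputable def trm (ct : GT) (c pp : ℕ) (K : List (ℕ × ℕ)) (w : ℕ → ℕ) (f : ℕ → ℕ → ℕ)
    (T lam0 sg S : ℕ) (P Q : AT) (k : ℕ → AT → AT → Bool) : Bool :=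
  red c K (fun z => z) w f 0 0 fun w' f' s e =>
    seq (Nat.mod (Nat.add pp e) 2) fun par =>
      cond (tck 8 c (tabG ct) par w' (gD f') T)
        (seq (cfN pp e par s) fun cf =>
          cond (Nat.beq (Nat.mul (Nat.mul cf cf) (Nat.pow 6 (Nat.add (Nat.add e par) (Nat.mul 2 s))))
            (Nat.pow 6 (Nat.add 8 pp)))
            (seq (Nat.mul lam0 cf) fun lam => put sg lam T S P Q k) false) false

theorem cf_spec {cf e par s pp : ℕ}
    (h : cf * cf * 6 ^ (e + par + 2 * s) = 6 ^ (8 + pp)) :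
    (cf : ℝ) * (Real.sqrt 6 ^ (e + par) * 6 ^ s) = 6 ^ 4 * Real.sqrt 6 ^ pp := by
  have h1 : ((cf : ℝ) * (Real.sqrt 6 ^ (e + par) * 6 ^ s)) ^ 2
      = (6 ^ 4 * Real.sqrt 6 ^ pp) ^ 2 := by
    have h2 : (cf : ℝ) * cf * 6 ^ (e + par + 2 * s) = 6 ^ (8 + pp) := by exact_mod_cast h
    have h3 : ∀ n : ℕ, (Real.sqrt 6 ^ n) ^ 2 = 6 ^ n := fun n => by
      rw [← pow_mul, mul_comm, pow_mul, sqrt6_sq]
    calc ((cf : ℝ) * (Real.sqrt 6 ^ (e + par) * 6 ^ s)) ^ 2
        = (cf : ℝ) * cf * ((Real.sqrt 6 ^ (e + par)) ^ 2 * ((6 : ℝ) ^ s) ^ 2) := by ring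
      _ = (cf : ℝ) * cf * 6 ^ (e + par + 2 * s) := by
          rw [h3, ← pow_mul, ← pow_add, mul_comm s 2]
      _ = 6 ^ (8 + pp) := h2
      _ = ((6 : ℝ) ^ 4 * Real.sqrt 6 ^ pp) ^ 2 := by rw [mul_pow, h3, ← pow_mul, ← pow_add]
  have h4 : (0 : ℝ) ≤ cf * (Real.sqrt 6 ^ (e + par) * 6 ^ s) := by positivity
  have h5 : (0 : ℝ) ≤ 6 ^ 4 * Real.sqrt 6 ^ pp := by positivity
  exact (pow_left_inj₀ h4 h5 (by norm_num)).1 h1

theorem pwp_eq {par : ℕ} (h : par < 2) : pwp par = Real.sqrt 6 ^ par := by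
  unfold pwp
  interval_cases par <;> simp

theorem trm_sound (hB : IsMUBs B) {ct : GT} {pp : ℕ} {K : List (ℕ × ℕ)} {w : ℕ → ℕ}
    {f : ℕ → ℕ → ℕ} {T lam0 sg S : ℕ} {P Q : AT} {D : ℝ} (k : ℕ → AT → AT → Bool)
    (hS : St (cv B 8 c) ct S P Q D) (hK : ∀ z ∈ K, z.1 < 8 ∧ z.2 < 8) (hw : ∀ p, w p % 2 = 0)
    (h : trm ct c pp K w f T lam0 sg S P Q k = true) :
    ∃ S' P' Q', St (cv B 8 c) ct S' P' Q'
      (D + sgR sg * (lam0 * (6 ^ 4 * Real.sqrt 6 ^ pp * (gN B c w f K).re))) ∧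
      k S' P' Q' = true := by
  unfold trm at h
  obtain ⟨w', f', s', e', h1, h2, h3⟩ := red_spec hB _ K (fun z => z) w f 0 0 (fun z hz => hz) hK hw h
  simp only [seq_eq] at h1
  have hid : sK (fun z => z) K = K := by
    unfold sK
    exact List.map_id _
  rw [hid, pow_zero, pow_zero, one_mul, one_mul] at h3
  set par := Nat.mod (Nat.add pp e') 2 with hpar
  have hpar2 : par < 2 := Nat.mod_lt _ (by norm_num)
  cases ht : tck 8 c (tabG ct) par w' (gD f') T with
  | false => rw [ht] at h1; exact absurd h1 (by simp)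
  | true =>
    rw [ht, cond_true] at h1
    set cf := cfN pp e' par s' with hcf
    cases hb : Nat.beq (Nat.mul (Nat.mul cf cf) (Nat.pow 6 (Nat.add (Nat.add e' par) (Nat.mul 2 s'))))
        (Nat.pow 6 (Nat.add 8 pp)) with
    | false => rw [hb] at h1; exact absurd h1 (by simp)
    | true =>
      rw [hb, cond_true] at h1
      have hb' := Nat.eq_of_beq_eq_true hb
      have hcf2 := cf_spec (cf := cf) (e := e') (par := par) (s := s') (pp := pp) hb'
      obtain ⟨S', P', Q', a1, a2⟩ := put_sound hS _ h1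
      refine ⟨S', P', Q', ?_, a2⟩
      convert a1 using 2
      congr 1
      rw [tck_dir hB ht h2, pwp_eq hpar2]
      have h4 : Real.sqrt 6 ^ e' * 6 ^ s' * (gN B c w f K).re
          = (gv B (colW c w') lab0 (flW f')).re := by
        rw [← re_r6, h3]
      rw [← h4]
      have h5 : ((Nat.mul lam0 cf : ℕ) : ℝ) = lam0 * cf := by
        show ((lam0 * cf : ℕ) : ℝ) = _
        push_cast; ring
      rw [h5, ← hcf2, pow_add]
      ring

/-! ### A product -/

/-- term number `i` of a packed list. -/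
def tN (T i : ℕ) : ℕ := Nat.mod (Nat.shiftRight T (Nat.mul 88 i)) 309485009821345068724781056

/-- opposite sign. -/
def flp (sg : ℕ) : ℕ := cond (Nat.beq sg 0) 1 0

theorem sgR_flp (sg : ℕ) : sgR (flp sg) = - sgR sg := by
  unfold sgR flp
  cases sg with
  | zero => simp
  | succ n =>
    have : Nat.beq (n + 1) 0 = false := rfl
    rw [this]; simp

/-- `a · 6^5 · √6^pp ·` kernel. -/
noncomputable def prd (ct : GT) (c m Z X Y T a sg S : ℕ) (P Q : AT)
    (k : ℕ → AT → AT → Bool) : Bool :=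
  seq (Nat.add (pX X) (pX Y)) fun pp =>
  trm ct c pp (kMn X Y) (wP Z X Y 0) (fP X Y) (tN T 0) (Nat.mul 6 a) sg S P Q fun S P Q =>
  trm ct c pp (kTn X Y) (wP Z X Y 0) (fP X Y) (tN T 1) (Nat.mul (Nat.sub m 1) a) sg S P Q
    fun S P Q =>
  trm ct c pp (kDn X Y) (wP Z X Y 2) (fP X Y) (tN T 2) (Nat.mul 36 a) (flp sg) S P Q
    fun S P Q =>
  trm ct c pp (kDn X Y) (wP Z X Y 4) (fP X Y) (tN T 3) (Nat.mul 36 a) (flp sg) S P Q
    fun S P Q =>
  trm ct c pp (kDn X Y) (wP Z X Y 6) (fP X Y) (tN T 4) (Nat.mul (Nat.mul 36 (Nat.sub m 2)) a)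
    (flp sg) S P Q k

theorem okw_le {a : ℕ} (h : okw a = true) : a ≤ 4 := by
  unfold okw at h
  rw [Bool.or_eq_true, Bool.or_eq_true] at h
  rcases h with h | h | h <;> · have := Nat.eq_of_beq_eq_true h; omega

theorem wP_even {Z X Y wu : ℕ} (hZ : zOK Z = true) (hX : fOK X = true) (hY : fOK Y = true)
    (hwu : wu % 2 = 0) (hZ' : ∀ p, 8 ≤ p → rN p = false) (p : ℕ) : wP Z X Y wu p % 2 = 0 := by
  by_cases h8 : p < 8
  · by_cases hp : p = 6
    · rw [hp]; exact hwu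
    · have h1 := wP_okw (wu := wu) hZ hX hY (fi p) (fun h => hp (by
        have := congrArg Fin.val h
        rw [val_fi h8] at this
        exact this))
      rw [val_fi h8] at h1
      exact okw_even h1
  · have h1 : Nat.beq p 6 = false := by
      rw [beq_dec]; exact decide_eq_false (by omega)
    have h2 : rN p = false := hZ' p (by omega)
    have h3 : lN p = false := by
      unfold lN
      have : 12 >>> p = 0 := by
        rw [Nat.shiftRight_eq_div_pow]
        apply Nat.div_eq_of_lt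
        calc 12 < 2 ^ 8 := by norm_num
          _ ≤ 2 ^ p := Nat.pow_le_pow_right (by norm_num) (by omega)
      have h4 : Nat.shiftRight 12 p = 0 := this
      rw [h4]; rfl
    have h4 : iN p = 0 := by
      unfold iN nib
      have : 1983009808 >>> (4 * p) = 0 := by
        rw [Nat.shiftRight_eq_div_pow]
        apply Nat.div_eq_of_lt
        calc 1983009808 < 2 ^ 32 := by norm_num
          _ ≤ 2 ^ (4 * p) := Nat.pow_le_pow_right (by norm_num) (by omega)
      have h5 : Nat.shiftRight 1983009808 (Nat.mul 4 p) = 0 := this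
      rw [h5]
    unfold wP
    rw [h1, h2, h3, h4]
    rfl

theorem rN_big : ∀ p, 8 ≤ p → rN p = false := by
  intro p hp
  unfold rN
  have : 195 >>> p = 0 := by
    rw [Nat.shiftRight_eq_div_pow]
    apply Nat.div_eq_of_lt
    calc 195 < 2 ^ 8 := by norm_num
      _ ≤ 2 ^ p := Nat.pow_le_pow_right (by norm_num) hp
  have h4 : Nat.shiftRight 195 p = 0 := this
  rw [h4]; rfl

theorem fOK_lt {X : ℕ} (h : fOK X = true) : kX X < 8 ∧ bX X < 8 := by
  unfold fOK at h
  simp only [Bool.and_eq_true] at h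
  exact ⟨okN_lt h.1.1, okN_lt h.1.2⟩

/-- scaled kernel. -/
noncomputable def MS (B : Fin m → M6) (c Z X Y : ℕ) : ℝ :=
  Real.sqrt 6 ^ pX X * Real.sqrt 6 ^ pX Y * ME (tyP c Z) B (fLF c X) (fLF c Y)

theorem prd_sound (hB : IsMUBs B) (hm : 2 ≤ m) (hc : 3 ≤ c) {ct : GT} {Z X Y T a sg S : ℕ}
    {P Q : AT} {D : ℝ} (k : ℕ → AT → AT → Bool) (hZ : zOK Z = true) (hX : fOK X = true)
    (hY : fOK Y = true) (hS : St (cv B 8 c) ct S P Q D)
    (h : prd ct c m Z X Y T a sg S P Q k = true) :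
    ∃ S' P' Q', St (cv B 8 c) ct S' P' Q' (D + sgR sg * (a * (6 ^ 5 * MS B c Z X Y))) ∧
      k S' P' Q' = true := by
  unfold prd at h
  rw [seq_eq] at h
  obtain ⟨kx, bx⟩ := fOK_lt hX
  obtain ⟨ky, byy⟩ := fOK_lt hY
  have hi1 := iN_lt8 ky
  have hi2 := iN_lt8 byy
  have hK1 : ∀ z ∈ kMn X Y, z.1 < 8 ∧ z.2 < 8 := by
    intro z hz
    unfold kMn at hz
    simp only [List.mem_cons, List.not_mem_nil, or_false] at hz
    rcases hz with rfl | rfl
    · exact ⟨hi1, kx⟩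
    · exact ⟨bx, hi2⟩
  have hK2 : ∀ z ∈ kTn X Y, z.1 < 8 ∧ z.2 < 8 := by
    intro z hz
    unfold kTn at hz
    simp only [List.mem_cons, List.not_mem_nil, or_false] at hz
    rcases hz with rfl | rfl
    · exact ⟨hi1, hi2⟩
    · exact ⟨bx, kx⟩
  have h6 : (6 : ℕ) < 8 := by norm_num
  have hK3 : ∀ z ∈ kDn X Y, z.1 < 8 ∧ z.2 < 8 := by
    intro z hz
    unfold kDn at hz
    simp only [List.mem_cons, List.not_mem_nil, or_false] at hz
    rcases hz with rfl | rfl | rfl | rfl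
    · exact ⟨hi1, h6⟩
    · exact ⟨h6, kx⟩
    · exact ⟨bx, h6⟩
    · exact ⟨h6, hi2⟩
  have hw : ∀ wu, wu % 2 = 0 → ∀ p, wP Z X Y wu p % 2 = 0 := fun wu hwu p =>
    wP_even hZ hX hY hwu rN_big p
  obtain ⟨S1, P1, Q1, a1, b1⟩ := trm_sound hB _ hS hK1 (hw 0 rfl) h
  obtain ⟨S2, P2, Q2, a2, b2⟩ := trm_sound hB _ a1 hK2 (hw 0 rfl) b1
  obtain ⟨S3, P3, Q3, a3, b3⟩ := trm_sound hB _ a2 hK3 (hw 2 rfl) b2
  obtain ⟨S4, P4, Q4, a4, b4⟩ := trm_sound hB _ a3 hK3 (hw 4 rfl) b3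
  obtain ⟨S5, P5, Q5, a5, b5⟩ := trm_sound hB _ a4 hK3 (hw 6 rfl) b4
  refine ⟨S5, P5, Q5, ?_, b5⟩
  convert a5 using 1
  have e1 : ((Nat.mul 6 a : ℕ) : ℝ) = 6 * a := by
    show ((6 * a : ℕ) : ℝ) = _
    push_cast; ring
  have e2 : ((Nat.mul (Nat.sub m 1) a : ℕ) : ℝ) = ((m : ℝ) - 1) * a := by
    show (((m - 1) * a : ℕ) : ℝ) = _
    rw [Nat.cast_mul, Nat.cast_sub (by omega)]
    push_cast; ring
  have e3 : ((Nat.mul 36 a : ℕ) : ℝ) = 36 * a := by
    show ((36 * a : ℕ) : ℝ) = _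
    push_cast; ring
  have e4 : ((Nat.mul (Nat.mul 36 (Nat.sub m 2)) a : ℕ) : ℝ) = 36 * ((m : ℝ) - 2) * a := by
    show ((36 * (m - 2) * a : ℕ) : ℝ) = _
    rw [Nat.cast_mul, Nat.cast_mul, Nat.cast_sub (by omega)]
    push_cast; ring
  rw [e1, e2, e3, e4, sgR_flp]
  unfold MS
  rw [ME_num hB hc hZ hX hY]
  have e5 : Real.sqrt 6 ^ (Nat.add (pX X) (pX Y)) = Real.sqrt 6 ^ pX X * Real.sqrt 6 ^ pX Y := by
    show Real.sqrt 6 ^ (pX X + pX Y) = _
    rw [pow_add]
  rw [e5]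
  ring

/-! ### Rows -/

/-- element of a list. -/
def elt (l : List ℕ) (n : ℕ) : ℕ := l.getD n 0

/-- one entry of the Gram matrix: digit `d` of the row, offset `oU`. -/
noncomputable def ent (ct : GT) (c m Z w oU U i : ℕ) (fs Ts : List ℕ) (j S : ℕ) (P Q : AT)
    (k : ℕ → AT → AT → Bool) : Bool :=
  seq (elt fs i) fun X => seq (elt fs j) fun Y => seq (elt Ts j) fun T =>
  seq (Nat.mod (Nat.shiftRight U (Nat.mul w j)) (Nat.pow 2 w)) fun d =>
  seq (cond (Nat.beq j i) 1 2) fun mu =>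
    cond (Nat.ble oU d) (prd ct c m Z X Y T (Nat.mul mu (Nat.sub d oU)) 0 S P Q k)
      (prd ct c m Z X Y T (Nat.mul mu (Nat.sub oU d)) 1 S P Q k)

/-- value of an entry. -/
noncomputable def entV (B : Fin m → M6) (c Z w oU U i : ℕ) (fs : List ℕ) (j : ℕ) : ℝ :=
  (if j = i then 1 else 2) * (((H129.dg (2 ^ w) U j : ℤ) - oU : ℤ) : ℝ)
    * (6 ^ 5 * MS B c Z (elt fs i) (elt fs j))

theorem ent_sound (hB : IsMUBs B) (hm : 2 ≤ m) (hc : 3 ≤ c) {ct : GT} {Z w oU U i : ℕ}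
    {fs Ts : List ℕ} {j S : ℕ} {P Q : AT} {D : ℝ} (k : ℕ → AT → AT → Bool)
    (hZ : zOK Z = true) (hX : fOK (elt fs i) = true) (hY : fOK (elt fs j) = true)
    (hS : St (cv B 8 c) ct S P Q D) (h : ent ct c m Z w oU U i fs Ts j S P Q k = true) :
    ∃ S' P' Q', St (cv B 8 c) ct S' P' Q' (D + entV B c Z w oU U i fs j) ∧ k S' P' Q' = true := by
  unfold ent at h
  simp only [seq_eq] at h
  have hd : Nat.mod (Nat.shiftRight U (Nat.mul w j)) (Nat.pow 2 w) = H129.dg (2 ^ w) U j := by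
    unfold H129.dg
    show (U >>> (w * j)) % 2 ^ w = _
    rw [Nat.shiftRight_eq_div_pow, pow_mul]
  rw [hd] at h
  have hmu : ((cond (Nat.beq j i) 1 2 : ℕ) : ℝ) = if j = i then 1 else 2 := by
    rw [beq_dec]
    by_cases hji : j = i <;> simp [hji]
  cases hb : Nat.ble oU (H129.dg (2 ^ w) U j) with
  | true =>
    rw [hb, cond_true] at h
    have hle : oU ≤ H129.dg (2 ^ w) U j := Nat.le_of_ble_eq_true hb
    obtain ⟨S', P', Q', a1, a2⟩ := prd_sound hB hm hc k hZ hX hY hS h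
    refine ⟨S', P', Q', ?_, a2⟩
    convert a1 using 2
    unfold entV
    have e1 : ((Nat.mul (cond (Nat.beq j i) 1 2) (Nat.sub (H129.dg (2 ^ w) U j) oU) : ℕ) : ℝ)
        = (if j = i then 1 else 2) * (((H129.dg (2 ^ w) U j : ℤ) - oU : ℤ) : ℝ) := by
      rw [← hmu]
      show (((cond (Nat.beq j i) 1 2) * (H129.dg (2 ^ w) U j - oU) : ℕ) : ℝ) = _
      rw [Nat.cast_mul, Nat.cast_sub hle]
      push_cast; ring
    rw [e1]
    unfold sgR
    rw [if_pos rfl, one_mul]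
  | false =>
    rw [hb, cond_false] at h
    have hle : H129.dg (2 ^ w) U j < oU := by
      by_contra h'
      have h2 : Nat.ble oU (H129.dg (2 ^ w) U j) = true := Nat.ble_eq_true_of_le (not_lt.1 h')
      rw [hb] at h2
      exact absurd h2 (by simp)
    obtain ⟨S', P', Q', a1, a2⟩ := prd_sound hB hm hc k hZ hX hY hS h
    refine ⟨S', P', Q', ?_, a2⟩
    convert a1 using 2
    unfold entV
    have e1 : ((Nat.mul (cond (Nat.beq j i) 1 2) (Nat.sub oU (H129.dg (2 ^ w) U j)) : ℕ) : ℝ)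
        = - ((if j = i then 1 else 2) * (((H129.dg (2 ^ w) U j : ℤ) - oU : ℤ) : ℝ)) := by
      rw [← hmu]
      show (((cond (Nat.beq j i) 1 2) * (oU - H129.dg (2 ^ w) U j) : ℕ) : ℝ) = _
      rw [Nat.cast_mul, Nat.cast_sub hle.le]
      push_cast; ring
    have hs : sgR 1 = -1 := by unfold sgR; norm_num
    rw [e1, hs]
    ring

/-- entries `j < n` of a row. -/
noncomputable def rowP (ct : GT) (c m Z w oU U i : ℕ) (fs Ts : List ℕ) (n : ℕ) :
    ℕ → AT → AT → (ℕ → AT → AT → Bool) → Bool :=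
  Nat.rec (motive := fun _ => ℕ → AT → AT → (ℕ → AT → AT → Bool) → Bool)
    (fun S P Q k => k S P Q)
    (fun j ih S P Q k => ent ct c m Z w oU U i fs Ts j S P Q fun S' P' Q' => ih S' P' Q' k) n

theorem rowP_sound (hB : IsMUBs B) (hm : 2 ≤ m) (hc : 3 ≤ c) {ct : GT} {Z w oU U i : ℕ}
    {fs Ts : List ℕ} (k : ℕ → AT → AT → Bool) (hZ : zOK Z = true)
    (hX : ∀ j ≤ i, fOK (elt fs j) = true) : ∀ (n : ℕ), n ≤ i + 1 → ∀ (S : ℕ) (P Q : AT) (D : ℝ),
    St (cv B 8 c) ct S P Q D → rowP ct c m Z w oU U i fs Ts n S P Q k = true →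
    ∃ S' P' Q', St (cv B 8 c) ct S' P' Q' (D + ∑ j ∈ range n, entV B c Z w oU U i fs j) ∧
      k S' P' Q' = true := by
  intro n
  induction n with
  | zero =>
    intro _ S P Q D hS h
    exact ⟨S, P, Q, by simpa using hS, h⟩
  | succ j ih =>
    intro hj S P Q D hS h
    have hstep : rowP ct c m Z w oU U i fs Ts (j + 1) S P Q k
        = ent ct c m Z w oU U i fs Ts j S P Q fun S' P' Q' =>
          rowP ct c m Z w oU U i fs Ts j S' P' Q' k := rfl
    rw [hstep] at h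
    obtain ⟨S1, P1, Q1, a1, b1⟩ := ent_sound hB hm hc _ hZ (hX i le_rfl) (hX j (by omega)) hS h
    obtain ⟨S2, P2, Q2, a2, b2⟩ := ih (by omega) _ _ _ _ a1 b1
    refine ⟨S2, P2, Q2, ?_, b2⟩
    rw [sum_range_succ]
    convert a2 using 1
    ring

/-- rows `a + n - 1, …, a`. -/
noncomputable def rowsP (ct : GT) (c m Z w oU : ℕ) (Us fs : List ℕ) (Tss : List (List ℕ))
    (a n : ℕ) : ℕ → AT → AT → (ℕ → AT → AT → Bool) → Bool :=
  Nat.rec (motive := fun _ => ℕ → AT → AT → (ℕ → AT → AT → Bool) → Bool)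
    (fun S P Q k => k S P Q)
    (fun i ih S P Q k => seq (Nat.add a i) fun ai => seq (elt Us ai) fun U =>
      rowP ct c m Z w oU U ai fs (Tss.getD i []) (Nat.succ ai) S P Q
        fun S' P' Q' => ih S' P' Q' k) n

/-- value of a row. -/
noncomputable def rowV (B : Fin m → M6) (c Z w oU : ℕ) (Us fs : List ℕ) (i : ℕ) : ℝ :=
  ∑ j ∈ range (i + 1), entV B c Z w oU (elt Us i) i fs j

theorem rowsP_sound (hB : IsMUBs B) (hm : 2 ≤ m) (hc : 3 ≤ c) {ct : GT} {Z w oU : ℕ}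
    {Us fs : List ℕ} {Tss : List (List ℕ)} {a : ℕ} (k : ℕ → AT → AT → Bool) (hZ : zOK Z = true) :
    ∀ (n : ℕ), (∀ j < a + n, fOK (elt fs j) = true) → ∀ (S : ℕ) (P Q : AT) (D : ℝ),
    St (cv B 8 c) ct S P Q D → rowsP ct c m Z w oU Us fs Tss a n S P Q k = true →
    ∃ S' P' Q', St (cv B 8 c) ct S' P' Q' (D + ∑ i ∈ range n, rowV B c Z w oU Us fs (a + i)) ∧
      k S' P' Q' = true := by
  intro n
  induction n with
  | zero =>
    intro _ S P Q D hS h
    exact ⟨S, P, Q, by simpa using hS, h⟩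
  | succ i ih =>
    intro hf S P Q D hS h
    have hstep : rowsP ct c m Z w oU Us fs Tss a (i + 1) S P Q k
        = seq (Nat.add a i) fun ai => seq (elt Us ai) fun U =>
          rowP ct c m Z w oU U ai fs (Tss.getD i []) (Nat.succ ai) S P Q
            fun S' P' Q' => rowsP ct c m Z w oU Us fs Tss a i S' P' Q' k := rfl
    rw [hstep] at h
    simp only [seq_eq] at h
    obtain ⟨S1, P1, Q1, a1, b1⟩ := rowP_sound (i := a + i) hB hm hc _ hZ
      (fun j hj => hf j (by omega)) _ le_rfl _ _ _ _ hS h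
    obtain ⟨S2, P2, Q2, a2, b2⟩ := ih (fun j hj => hf j (by omega)) _ _ _ _ a1 b1
    refine ⟨S2, P2, Q2, ?_, b2⟩
    rw [sum_range_succ]
    convert a2 using 1
    unfold rowV
    have e2 : elt Us (Nat.add a i) = elt Us (a + i) := rfl
    rw [e2]
    ring

/-! ### The output list -/

/-- load a list of classes with integer coefficients. -/
noncomputable def loadA (L : List (ℕ × ℤ)) : ℕ → AT → AT → (ℕ → AT → AT → Bool) → Bool :=
  List.rec (motive := fun _ => ℕ → AT → AT → (ℕ → AT → AT → Bool) → Bool)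
    (fun S P Q k => k S P Q)
    (fun e _ ih S P Q k => seq e.1 fun t => Int.rec (motive := fun _ => Bool)
      (fun a => seq a fun a => put 0 a t S P Q fun S' P' Q' => ih S' P' Q' k)
      (fun a => seq a fun a => put 1 (Nat.succ a) t S P Q fun S' P' Q' => ih S' P' Q' k) e.2) L

/-- the numbers of the list are below `2^20`. -/
def idsOK (L : List (ℕ × ℤ)) : Bool :=
  List.rec (motive := fun _ => Bool) true (fun e _ ih => and (Nat.blt e.1 1048576) ih) L

theorem loadA_sound {g : ℕ → ℝ} {ct : GT} (k : ℕ → AT → AT → Bool) (L : List (ℕ × ℤ)) :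
    idsOK L = true → ∀ (S : ℕ) (P Q : AT) (D : ℝ), St g ct S P Q D → loadA L S P Q k = true →
    ∃ S' P' Q', St g ct S' P' Q' (D + valA (fun i => g (tabG ct i)) L) ∧ k S' P' Q' = true := by
  induction L with
  | nil =>
    intro _ S P Q D hS h
    exact ⟨S, P, Q, by simpa [valA] using hS, h⟩
  | cons e L ih =>
    intro hid S P Q D hS h
    have hid' : (Nat.blt e.1 1048576 && idsOK L) = true := hid
    rw [Bool.and_eq_true, Nat.blt_eq] at hid'
    have hte : tId e.1 = e.1 := Nat.mod_eq_of_lt hid'.1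
    obtain ⟨e1, e2⟩ := e
    have hval : ∀ D : ℝ, D + valA (fun i => g (tabG ct i)) ((e1, e2) :: L)
        = (D + e2 * g (tabG ct e1)) + valA (fun i => g (tabG ct i)) L := by
      intro D
      simp only [valA, List.map_cons, List.sum_cons]; ring
    simp only at hte
    cases e2 with
    | ofNat a =>
      have hstep : loadA ((e1, Int.ofNat a) :: L) S P Q k
          = seq e1 fun t => seq a fun a => put 0 a t S P Q fun S' P' Q' => loadA L S' P' Q' k := rfl
      rw [hstep] at h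
      simp only [seq_eq] at h
      obtain ⟨S1, P1, Q1, a1, b1⟩ := put_sound hS _ h
      obtain ⟨S2, P2, Q2, a2, b2⟩ := ih hid'.2 _ _ _ _ a1 b1
      refine ⟨S2, P2, Q2, ?_, b2⟩
      rw [hval]
      convert a2 using 3
      rw [hte]
      unfold sgR
      rw [if_pos rfl]
      simp
    | negSucc a =>
      have hstep : loadA ((e1, Int.negSucc a) :: L) S P Q k
          = seq e1 fun t => seq a fun a => put 1 (Nat.succ a) t S P Q
            fun S' P' Q' => loadA L S' P' Q' k := rfl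
      rw [hstep] at h
      simp only [seq_eq] at h
      obtain ⟨S1, P1, Q1, a1, b1⟩ := put_sound hS _ h
      obtain ⟨S2, P2, Q2, a2, b2⟩ := ih hid'.2 _ _ _ _ a1 b1
      refine ⟨S2, P2, Q2, ?_, b2⟩
      rw [hval]
      convert a2 using 3
      rw [hte]
      unfold sgR
      rw [if_neg (by norm_num), Int.cast_negSucc]
      push_cast
      ring

/-- flags `0, …, n - 1` are admissible. -/
def fsOK (fs : List ℕ) (n : ℕ) : Bool := allN n fun i => fOK (elt fs i)

/-- **check of the rows `a, …, a + n - 1`.** -/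
noncomputable def pkCk (ct : GT) (c m Z w oU : ℕ) (Us fs : List ℕ) (Tss : List (List ℕ))
    (a n : ℕ) (out : List (ℕ × ℤ)) : Bool :=
  and (and (zOK Z) (and (fsOK fs (Nat.add a n)) (idsOK out)))
    (rowsP ct c m Z w oU Us fs Tss a n 0 (zeroT ct) (zeroT ct) fun S P Q =>
      loadA out S Q P fun S' Q' P' => cond (Nat.blt S' 9223372036854775808) (eqT P' Q') false)

theorem pkCk_sound (hB : IsMUBs B) (hm : 2 ≤ m) (hc : 3 ≤ c) {ct : GT} {Z w oU : ℕ}
    {Us fs : List ℕ} {Tss : List (List ℕ)} {a n : ℕ} {out : List (ℕ × ℤ)}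
    (h : pkCk ct c m Z w oU Us fs Tss a n out = true) :
    ∑ i ∈ range n, rowV B c Z w oU Us fs (a + i)
      = valA (fun i => cv B 8 c (tabG ct i)) out := by
  unfold pkCk at h
  rw [Bool.and_eq_true, Bool.and_eq_true, Bool.and_eq_true] at h
  obtain ⟨⟨hZ, hf, hid⟩, h⟩ := h
  have hS0 : St (cv B 8 c) ct 0 (zeroT ct) (zeroT ct) 0 :=
    ⟨0, 0, AG.zero ct, AG.zero ct, by ring⟩
  obtain ⟨S1, P1, Q1, a1, b1⟩ := rowsP_sound hB hm hc _ hZ n
    (fun j hj => allN_spec hf j hj) _ _ _ _ hS0 h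
  obtain ⟨V, W, c1, c2, c3⟩ := a1
  obtain ⟨S2, P2, Q2, a2, b2⟩ := loadA_sound _ out hid _ _ _ _ (show St (cv B 8 c) ct S1 Q1 P1 (W - V)
    from ⟨W, V, c2, c1, rfl⟩) b1
  obtain ⟨V', W', d1, d2, d3⟩ := a2
  cases hz : Nat.blt S2 9223372036854775808 with
  | false => rw [hz] at b2; exact absurd b2 (by simp)
  | true =>
    rw [hz, cond_true] at b2
    have hlt : S2 < 2 ^ 63 := by
      rw [Nat.blt_eq] at hz
      norm_num; exact hz
    have := eqT_sound d2 d1 hlt hlt b2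
    linarith

/-! ### Positivity -/

theorem gramF_scl {X : Type*} {M : X → X → ℝ} (h : GramF M) (s : X → ℝ) :
    GramF fun x y => s x * s y * M x y := by
  obtain ⟨ι, hι, φ, hφ⟩ := h
  refine ⟨ι, hι, fun i x => (s x : ℂ) * φ i x, fun x y => ?_⟩
  dsimp only
  rw [hφ, Finset.mul_sum]
  refine Finset.sum_congr rfl fun i _ => ?_
  have h1 : star ((s y : ℝ) : ℂ) = ((s y : ℝ) : ℂ) := Complex.conj_ofReal _
  rw [star_mul', h1]
  have h2 : (s x : ℂ) * φ i x * ((s y : ℂ) * star (φ i y))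
      = ((s x * s y : ℝ) : ℂ) * (φ i x * star (φ i y)) := by push_cast; ring
  rw [h2, Complex.re_ofReal_mul]

theorem MS_gram (hB : IsMUBs B) (Z : ℕ) : GramF (MS B c Z) :=
  gramF_scl ((ME_gram hB (tyP c Z)).comp (fLF c)) fun X => Real.sqrt 6 ^ pX X

theorem MS_symm (hB : IsMUBs B) (Z X Y : ℕ) : MS B c Z X Y = MS B c Z Y X := by
  obtain ⟨ι, _, φ, hφ⟩ := MS_gram (c := c) hB Z
  rw [hφ, hφ]
  refine Finset.sum_congr rfl fun i _ => ?_
  have h1 : φ i Y * star (φ i X) = star (φ i X * star (φ i Y)) := by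
    rw [star_mul', star_star]; ring
  rw [h1]
  exact (Complex.conj_re _).symm

/-- symmetric sums over a triangle. -/
theorem tri_sum (n : ℕ) (F : ℕ → ℕ → ℝ) (hF : ∀ i j, F i j = F j i) :
    ∑ i ∈ range n, ∑ j ∈ range n, F i j
      = ∑ i ∈ range n, ∑ j ∈ range (i + 1), (if j = i then 1 else 2) * F i j := by
  induction n with
  | zero => simp
  | succ n ih =>
    rw [sum_range_succ, sum_range_succ (fun i => ∑ j ∈ range (i + 1), _) n, ← ih]
    have h1 : ∀ i ∈ range n, ∑ j ∈ range (n + 1), F i j = ∑ j ∈ range n, F i j + F i n :=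
      fun i _ => sum_range_succ _ _
    rw [sum_congr rfl h1, sum_add_distrib, add_assoc]
    congr 1
    rw [sum_range_succ (fun j => F n j), sum_range_succ (fun j => (if j = n then 1 else 2) * F n j)]
    rw [if_pos rfl, one_mul, ← add_assoc]
    congr 1
    have h2 : ∀ j ∈ range n, (if j = n then (1 : ℝ) else 2) * F n j = F j n + F n j := by
      intro j hj
      have : j ≠ n := (mem_range.1 hj).ne
      rw [if_neg this, hF n j]; ring
    rw [sum_congr rfl h2, sum_add_distrib]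

/-- **positivity of the packing block.** -/
theorem pk_psd (hB : IsMUBs B) {Z w bu bl v n cc o oU δ : ℕ} {Us Cs fs : List ℕ}
    (h : H129.psdCk w bu bl v n cc o oU δ Us Cs = true) :
    0 ≤ ∑ i ∈ range n, rowV B c Z w oU Us fs i := by
  obtain ⟨ι, _, φ, hφ⟩ := MS_gram (c := c) hB Z
  have h1 : 0 ≤ ∑ i ∈ range n, ∑ j ∈ range n, (H129.Gm w oU Us i j : ℝ)
      * MS B c Z (elt fs i) (elt fs j) := by
    have h2 : ∑ i ∈ range n, ∑ j ∈ range n, (H129.Gm w oU Us i j : ℝ)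
        * MS B c Z (elt fs i) (elt fs j)
        = ∑ a : ι, ∑ i ∈ range n, ∑ j ∈ range n, (H129.Gm w oU Us i j : ℝ)
          * (φ a (elt fs i) * star (φ a (elt fs j))).re := by
      symm
      rw [Finset.sum_comm]
      refine Finset.sum_congr rfl fun i _ => ?_
      rw [Finset.sum_comm]
      refine Finset.sum_congr rfl fun j _ => ?_
      rw [hφ, Finset.mul_sum]
    rw [h2]
    refine Finset.sum_nonneg fun a _ => ?_
    exact H129.psdCk_nonneg h (fun i => φ a (elt fs i))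
  rw [tri_sum n _ (fun i j => by rw [H129.Gm_comm, MS_symm hB])] at h1
  have h3 : ∑ i ∈ range n, rowV B c Z w oU Us fs i = 6 ^ 5 * ∑ i ∈ range n,
      ∑ j ∈ range (i + 1), (if j = i then 1 else 2) * ((H129.Gm w oU Us i j : ℝ)
        * MS B c Z (elt fs i) (elt fs j)) := by
    rw [Finset.mul_sum]
    refine Finset.sum_congr rfl fun i _ => ?_
    unfold rowV
    rw [Finset.mul_sum]
    refine Finset.sum_congr rfl fun j hj => ?_
    have hji : j ≤ i := by have := mem_range.1 hj; omega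
    unfold entV H129.Gm
    rw [max_eq_left hji, min_eq_right hji]
    unfold elt
    ring
  rw [h3]
  positivity

/-- **the packing block**, all rows at once. -/
theorem pack_nonneg (hB : IsMUBs B) (hm : 2 ≤ m) (hc : 3 ≤ c) {ct : GT}
    {Z w bu bl v n cc o oU δ : ℕ} {Us Cs fs : List ℕ} {Tss : List (List ℕ)}
    {out : List (ℕ × ℤ)} (h : H129.psdCk w bu bl v n cc o oU δ Us Cs = true)
    (h1 : pkCk ct c m Z w oU Us fs Tss 0 n out = true) :
    0 ≤ valA (fun i => cv B 8 c (tabG ct i)) out := by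
  rw [← pkCk_sound hB hm hc h1]
  simp only [Nat.zero_add]
  exact pk_psd hB h

/-- consecutive blocks of rows. -/
def Chn (R : ℕ → ℝ) (g : ℕ → ℝ) : ℕ → List (ℕ × List (ℕ × ℤ)) → Prop
  | _, [] => True
  | a, e :: L => ∑ i ∈ range e.1, R (a + i) = valA g e.2 ∧ Chn R g (a + e.1) L

theorem Chn_sum {R g : ℕ → ℝ} : ∀ (L : List (ℕ × List (ℕ × ℤ))) (a : ℕ), Chn R g a L →
    ∑ i ∈ range (L.map fun e => e.1).sum, R (a + i) = (L.map fun e => valA g e.2).sum
  | [], a, _ => by simp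
  | e :: L, a, h => by
    obtain ⟨h1, h2⟩ := h
    have h3 := Chn_sum L _ h2
    rw [List.map_cons, List.sum_cons, List.map_cons, List.sum_cons, sum_range_add, h1, ← h3]
    congr 1
    exact sum_congr rfl fun i _ => by rw [add_assoc]

/-- **the packing block**, several modules of rows. -/
theorem pack_nonneg_mods (hB : IsMUBs B) {ct : GT}
    {Z w bu bl v n cc o oU δ : ℕ} {Us Cs fs : List ℕ} (L : List (ℕ × List (ℕ × ℤ)))
    (h : H129.psdCk w bu bl v n cc o oU δ Us Cs = true)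
    (hn : (L.map fun e => e.1).sum = n)
    (h1 : Chn (rowV B c Z w oU Us fs) (fun i => cv B 8 c (tabG ct i)) 0 L) :
    0 ≤ (L.map fun e => valA (fun i => cv B 8 c (tabG ct i)) e.2).sum := by
  rw [← Chn_sum L 0 h1, hn]
  simp only [Nat.zero_add]
  exact pk_psd hB h

end Vale.Agent.P355.H790
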