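import Vale.Agent.P355.H349.Frame4

/-! The complement of the diagonal algebras (E-sector, R-blocks): for `n` pairwise mutually
unbiased bases of `ℂ⁶` the traceless parts of the `n` diagonal algebras are mutually orthogonal,
hence `∑_u |⟨u|X|u⟩|² ≤ ‖X‖² + (n-1)/6 |tr X|²` for every `6 × 6` matrix `X`. -/

namespace Vale.Agent.P355.H790

open Finset Matrix Vale.Agent.P355 Vale.Agent.P355.H349

theorem re_star_mul_self (z : ℂ) : 0 ≤ (star z * z).re := by
  rw [normSq_star_mul, Complex.ofReal_re]; exact Complex.normSq_nonneg z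

/-- abstract form: a square expands. -/
theorem bess {κ ι : Type*} [Fintype κ] [Fintype ι] (X : κ → ℂ) (T : ι → κ → ℂ) (c : ι → ℂ) :
    0 ≤ ((∑ k, star (X k) * X k) - (∑ i, star (c i) * ∑ k, star (T i k) * X k)
      - (∑ i, c i * ∑ k, star (X k) * T i k)
      + ∑ i, ∑ j, star (c i) * c j * ∑ k, star (T i k) * T j k).re := by
  have h : (∑ k, star (X k) * X k) - (∑ i, star (c i) * ∑ k, star (T i k) * X k)
      - (∑ i, c i * ∑ k, star (X k) * T i k)
      + (∑ i, ∑ j, star (c i) * c j * ∑ k, star (T i k) * T j k)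
      = ∑ k, star (X k - ∑ i, c i * T i k) * (X k - ∑ i, c i * T i k) := by
    have e : ∀ k, star (X k - ∑ i, c i * T i k) * (X k - ∑ i, c i * T i k)
        = star (X k) * X k - (∑ i, star (c i) * (star (T i k) * X k))
          - (∑ i, c i * (star (X k) * T i k))
          + ∑ i, ∑ j, star (c i) * c j * (star (T i k) * T j k) := by
      intro k
      rw [star_sub, star_sum, sub_mul, mul_sub, mul_sub, Finset.sum_mul_sum, Finset.sum_mul,
        Finset.mul_sum]
      have h1 : ∑ i, star (X k) * (c i * T i k) = ∑ i, c i * (star (X k) * T i k) :=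
        Finset.sum_congr rfl fun i _ => by ring
      have h2 : ∑ i, star (c i * T i k) * X k = ∑ i, star (c i) * (star (T i k) * X k) :=
        Finset.sum_congr rfl fun i _ => by rw [star_mul']; ring
      have h3 : ∑ i, ∑ j, star (c i * T i k) * (c j * T j k)
          = ∑ i, ∑ j, star (c i) * c j * (star (T i k) * T j k) :=
        Finset.sum_congr rfl fun i _ => Finset.sum_congr rfl fun j _ => by rw [star_mul']; ring
      rw [h1, h2, h3]; ring
    simp only [e, Finset.sum_add_distrib, Finset.sum_sub_distrib]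
    congr 1
    · congr 1
      · congr 1
        rw [Finset.sum_comm]
        exact Finset.sum_congr rfl fun i _ => by rw [Finset.mul_sum]
      · rw [Finset.sum_comm]
        exact Finset.sum_congr rfl fun i _ => by rw [Finset.mul_sum]
    · symm
      rw [Finset.sum_comm]
      refine Finset.sum_congr rfl fun i _ => ?_
      rw [Finset.sum_comm]
      exact Finset.sum_congr rfl fun j _ => by rw [Finset.mul_sum]
  rw [h, Complex.re_sum]
  exact Finset.sum_nonneg fun k _ => re_star_mul_self _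

variable {n : ℕ} {B : Fin n → M6}

/-- `⟨u|X|u⟩` -/
def ev (B : Fin n → M6) (u : Fin n × Fin 6) (X : Fin 6 × Fin 6 → ℂ) : ℂ :=
  ∑ k : Fin 6 × Fin 6, star (vec B u k.1 * star (vec B u k.2)) * X k

/-- the trace -/
def tr (X : Fin 6 × Fin 6 → ℂ) : ℂ := ∑ k : Fin 6 × Fin 6, dl k.1 k.2 * X k

theorem tr_eq (X : Fin 6 × Fin 6 → ℂ) : tr X = ∑ r, X (r, r) := by
  unfold tr
  rw [Fintype.sum_prod_type]
  refine Finset.sum_congr rfl fun r _ => ?_
  simpa using sum_dl (fun s => X (r, s)) r

theorem ev_eq (u : Fin n × Fin 6) (X : Fin 6 × Fin 6 → ℂ) :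
    ev B u X = ∑ r, ∑ s, star (vec B u r) * X (r, s) * vec B u s := by
  unfold ev
  rw [Fintype.sum_prod_type]
  refine Finset.sum_congr rfl fun r _ => Finset.sum_congr rfl fun s _ => ?_
  rw [star_mul', star_star]; ring

/-- Hilbert-Schmidt product of two projections. -/
theorem hs_uu (u w : Fin n × Fin 6) :
    ∑ k : Fin 6 × Fin 6, star (vec B u k.1 * star (vec B u k.2)) * (vec B w k.1 * star (vec B w k.2))
      = ip B u w * ip B w u := by
  rw [Fintype.sum_prod_type]
  unfold ip
  rw [Finset.sum_mul_sum]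
  refine Finset.sum_congr rfl fun r _ => Finset.sum_congr rfl fun s _ => ?_
  simp only [star_mul', star_star]
  ring

/-- the diagonal values of one basis sum up to the trace. -/
theorem sum_ev (hB : IsMUBs B) (i : Fin n) (X : Fin 6 × Fin 6 → ℂ) :
    ∑ a, ev B (i, a) X = tr X := by
  unfold ev tr
  rw [Finset.sum_comm]
  refine Finset.sum_congr rfl fun k _ => ?_
  rw [← Finset.sum_mul]
  congr 1
  have h : ∑ a, (vec B (i, a) k.2 * star (vec B (i, a) k.1)) = dl k.2 k.1 :=
    unitary_rows (hB.1 i) k.2 k.1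
  rw [dl_symm, ← h]
  exact Finset.sum_congr rfl fun a _ => by rw [star_mul', star_star]; ring

theorem hs_diag (hB : IsMUBs B) (u : Fin n × Fin 6) :
    ∑ k : Fin 6 × Fin 6, star (vec B u k.1 * star (vec B u k.2)) * dl k.1 k.2 = 1 := by
  have h1 : ∀ k : Fin 6 × Fin 6, star (vec B u k.1 * star (vec B u k.2)) * dl k.1 k.2
      = dl k.1 k.2 * (star (vec B u k.1) * vec B u k.2) := fun k => by
    rw [star_mul', star_star]; ring
  simp only [h1]
  have h2 := tr_eq (fun k : Fin 6 × Fin 6 => star (vec B u k.1) * vec B u k.2)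
  unfold tr at h2
  rw [h2]
  have h3 := ip_same hB u.1 u.2 u.2
  rw [dl_self] at h3
  exact h3

/-- `⟨u|Y|u⟩` summed against `⟨w|X|w⟩`. -/
theorem gram_uu (hB : IsMUBs B) (X : Fin 6 × Fin 6 → ℂ) :
    ∑ u : Fin n × Fin 6, ∑ w : Fin n × Fin 6,
      star (ev B u X) * ev B w X * (ip B u w * ip B w u)
      = (∑ u : Fin n × Fin 6, star (ev B u X) * ev B u X)
        + (n : ℂ) * ((n : ℂ) - 1) / 6 * (star (tr X) * tr X) := by
  have h1 : ∀ u : Fin n × Fin 6, ∑ w : Fin n × Fin 6,
      star (ev B u X) * ev B w X * (ip B u w * ip B w u)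
      = star (ev B u X) * ev B u X + star (ev B u X) * (((n : ℂ) - 1) / 6 * tr X) := by
    intro u
    rw [Fintype.sum_prod_type]
    have h2 : ∀ j : Fin n, ∑ b, star (ev B u X) * ev B (j, b) X * (ip B u (j, b) * ip B (j, b) u)
        = (if j = u.1 then star (ev B u X) * ev B u X - star (ev B u X) * (1 / 6 * tr X) else 0)
          + star (ev B u X) * (1 / 6 * tr X) := by
      intro j
      by_cases hj : j = u.1
      · subst hj
        rw [if_pos rfl]
        have h3 : ∀ b, star (ev B u X) * ev B (u.1, b) X * (ip B u (u.1, b) * ip B (u.1, b) u)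
            = dl u.2 b * (star (ev B u X) * ev B (u.1, b) X) := by
          intro b
          have e1 : ip B u (u.1, b) = dl u.2 b := ip_same hB u.1 u.2 b
          have e2 : ip B (u.1, b) u = dl b u.2 := ip_same hB u.1 b u.2
          rw [e1, e2]
          unfold dl
          by_cases hb : u.2 = b
          · simp [hb]
          · simp [hb]
        simp only [h3]
        rw [sum_dl]
        ring
      · rw [if_neg hj, zero_add]
        have h3 : ∀ b, star (ev B u X) * ev B (j, b) X * (ip B u (j, b) * ip B (j, b) u)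
            = star (ev B u X) * (1 / 6) * ev B (j, b) X := by
          intro b
          rw [ip_mul hB (u := u) (v := (j, b)) (fun h => hj h.symm)]
          ring
        simp only [h3]
        rw [← Finset.mul_sum, sum_ev hB]
        ring
    simp only [h2]
    rw [Finset.sum_add_distrib, Finset.sum_ite_eq' Finset.univ u.1, if_pos (Finset.mem_univ _),
      Finset.sum_const, Finset.card_univ, Fintype.card_fin, nsmul_eq_mul]
    ring
  simp only [h1]
  rw [Finset.sum_add_distrib]
  congr 1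
  rw [← Finset.sum_mul, ← star_sum]
  rw [Fintype.sum_prod_type]
  simp only [sum_ev hB]
  rw [Finset.sum_const, Finset.card_univ, Fintype.card_fin, nsmul_eq_mul, star_mul']
  have : star (n : ℂ) = (n : ℂ) := by simp
  rw [this]
  ring

/-- **the E-sector**: the sesquilinear form `⟨X, P_E Y⟩`, where `P_E` is the projection of `M_6`
onto the orthogonal complement of the `n` diagonal algebras. -/
noncomputable def EF (B : Fin n → M6) (X Y : Fin 6 × Fin 6 → ℂ) : ℂ :=
  (∑ k, star (X k) * Y k) - (∑ u : Fin n × Fin 6, star (ev B u X) * ev B u Y)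
    + ((n : ℂ) - 1) / 6 * (star (tr X) * tr Y)

theorem EF_nonneg (hB : IsMUBs B) (X : Fin 6 × Fin 6 → ℂ) : 0 ≤ (EF B X X).re := by
  have h := bess X
    (fun (i : Option (Fin n × Fin 6)) k => i.elim (dl k.1 k.2)
      (fun u => vec B u k.1 * star (vec B u k.2)))
    (fun i => i.elim (-(((n : ℂ) - 1) / 6 * tr X)) (fun u => ev B u X))
  simp only [Fintype.sum_option, Option.elim_none, Option.elim_some] at h
  refine le_of_le_of_eq h ?_
  congr 1
  have e1 : ∑ k : Fin 6 × Fin 6, star (dl k.1 k.2) * X k = tr X := by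
    unfold tr; exact Finset.sum_congr rfl fun k _ => by rw [star_dl]
  have e2 : ∀ u, ∑ k : Fin 6 × Fin 6, star (vec B u k.1 * star (vec B u k.2)) * X k = ev B u X :=
    fun u => rfl
  have e3 : ∑ k : Fin 6 × Fin 6, star (X k) * dl k.1 k.2 = star (tr X) := by
    unfold tr; rw [star_sum]
    exact Finset.sum_congr rfl fun k _ => by rw [star_mul', star_dl]; ring
  have e4 : ∀ u, ∑ k : Fin 6 × Fin 6, star (X k) * (vec B u k.1 * star (vec B u k.2))
      = star (ev B u X) := fun u => by
    unfold ev; rw [star_sum]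
    exact Finset.sum_congr rfl fun k _ => by rw [star_mul', star_star]; ring
  have e5 : ∑ k : Fin 6 × Fin 6, star (dl k.1 k.2) * dl k.1 k.2 = 6 := by
    have h1 := tr_eq (fun k : Fin 6 × Fin 6 => dl k.1 k.2)
    unfold tr at h1
    simp only [star_dl]
    rw [h1]
    simp [dl_self]
  have e6 : ∀ u, ∑ k : Fin 6 × Fin 6, star (dl k.1 k.2) * (vec B u k.1 * star (vec B u k.2)) = 1 :=
    fun u => by
    have h1 := congrArg star (hs_diag hB u)
    rw [star_sum, star_one] at h1
    rw [← h1]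
    exact Finset.sum_congr rfl fun k _ => by
      rw [star_mul' (star (vec B u k.1 * star (vec B u k.2))), star_star, star_dl]; ring
  simp only [e1, e2, e3, e4, e5, e6, hs_diag hB, hs_uu]
  have hn : star (-(((n : ℂ) - 1) / 6 * tr X)) = -(((n : ℂ) - 1) / 6 * star (tr X)) := by
    rw [star_neg, star_mul']
    congr 2
    simp
  have hS : ∑ u : Fin n × Fin 6, ev B u X = (n : ℂ) * tr X := by
    rw [Fintype.sum_prod_type]
    simp only [sum_ev hB]
    rw [Finset.sum_const, Finset.card_univ, Fintype.card_fin, nsmul_eq_mul]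
  have hS' : ∑ u : Fin n × Fin 6, star (ev B u X) = (n : ℂ) * star (tr X) := by
    rw [← star_sum, hS, star_mul']; simp
  have f1 : ∑ x : Fin n × Fin 6, star (-(((n : ℂ) - 1) / 6 * tr X)) * ev B x X * 1
      = -(((n : ℂ) - 1) / 6 * star (tr X)) * ((n : ℂ) * tr X) := by
    simp only [mul_one]
    rw [← Finset.mul_sum, hS, hn]
  have f2 : ∑ x : Fin n × Fin 6, (star (ev B x X) * -(((n : ℂ) - 1) / 6 * tr X) * 1
        + ∑ w : Fin n × Fin 6, star (ev B x X) * ev B w X * (ip B x w * ip B w x))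
      = (n : ℂ) * star (tr X) * -(((n : ℂ) - 1) / 6 * tr X)
        + ((∑ u : Fin n × Fin 6, star (ev B u X) * ev B u X)
        + (n : ℂ) * ((n : ℂ) - 1) / 6 * (star (tr X) * tr X)) := by
    rw [Finset.sum_add_distrib, gram_uu hB]
    congr 1
    simp only [mul_one]
    rw [← Finset.sum_mul, hS']
  have f3 : ∑ u : Fin n × Fin 6, ev B u X * star (ev B u X)
      = ∑ u : Fin n × Fin 6, star (ev B u X) * ev B u X :=
    Finset.sum_congr rfl fun u _ => mul_comm _ _
  rw [f1, f2, f3, hn]
  unfold EF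
  ring

/-- the inequality `∑_u |⟨u|X|u⟩|² ≤ ‖X‖² + (n-1)/6 |tr X|²`. -/
theorem sum_ev_le (hB : IsMUBs B) (X : Fin 6 × Fin 6 → ℂ) :
    ∑ u : Fin n × Fin 6, Complex.normSq (ev B u X)
      ≤ (∑ k, Complex.normSq (X k)) + ((n : ℝ) - 1) / 6 * Complex.normSq (tr X) := by
  have h := EF_nonneg hB X
  have e : EF B X X = (((∑ k, Complex.normSq (X k))
      - (∑ u : Fin n × Fin 6, Complex.normSq (ev B u X))
      + ((n : ℝ) - 1) / 6 * Complex.normSq (tr X) : ℝ) : ℂ) := by
    unfold EF
    simp only [normSq_star_mul]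
    push_cast
    ring
  rw [e, Complex.ofReal_re] at h
  linarith

/-- linearity of a coordinate functional. -/
theorem lin_sum {κ ι : Type*} [Fintype κ] [Fintype ι] (t : κ → ℂ) (al : ι → ℂ) (F : ι → κ → ℂ) :
    ∑ k, t k * ∑ i, al i * F i k = ∑ i, al i * ∑ k, t k * F i k := by
  simp only [Finset.mul_sum]
  rw [Finset.sum_comm]
  exact Finset.sum_congr rfl fun i _ => Finset.sum_congr rfl fun k _ => by ring

theorem star_mul_sum {ι : Type*} [Fintype ι] (al : ι → ℂ) (x y : ι → ℂ) :
    star (∑ i, al i * x i) * (∑ j, al j * y j)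
      = ∑ i, ∑ j, star (al i) * al j * (star (x i) * y j) := by
  rw [star_sum, Finset.sum_mul_sum]
  exact Finset.sum_congr rfl fun i _ => Finset.sum_congr rfl fun j _ => by
    rw [star_mul']; ring

theorem EF_sum {ι : Type*} [Fintype ι] (al : ι → ℂ) (F : ι → Fin 6 × Fin 6 → ℂ) :
    EF B (fun k => ∑ i, al i * F i k) (fun k => ∑ i, al i * F i k)
      = ∑ i, ∑ j, star (al i) * al j * EF B (F i) (F j) := by
  unfold EF
  have h1 : ∀ k : Fin 6 × Fin 6, star (∑ i, al i * F i k) * ∑ i, al i * F i k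
      = ∑ i, ∑ j, star (al i) * al j * (star (F i k) * F j k) := fun k =>
    star_mul_sum al (fun i => F i k) (fun i => F i k)
  have h2 : ∀ u, ev B u (fun k => ∑ i, al i * F i k) = ∑ i, al i * ev B u (F i) := fun u =>
    lin_sum _ al F
  have h3 : tr (fun k => ∑ i, al i * F i k) = ∑ i, al i * tr (F i) := lin_sum _ al F
  simp only [h1, h2, h3, star_mul_sum, mul_add, mul_sub, Finset.sum_add_distrib,
    Finset.sum_sub_distrib]
  congr 1
  · congr 1
    · rw [Finset.sum_comm]
      refine Finset.sum_congr rfl fun i _ => ?_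
      rw [Finset.sum_comm]
      exact Finset.sum_congr rfl fun j _ => by rw [Finset.mul_sum]
    · rw [Finset.sum_comm]
      refine Finset.sum_congr rfl fun i _ => ?_
      rw [Finset.sum_comm]
      exact Finset.sum_congr rfl fun j _ => by rw [Finset.mul_sum]
  · rw [Finset.mul_sum]
    refine Finset.sum_congr rfl fun i _ => ?_
    rw [Finset.mul_sum]
    exact Finset.sum_congr rfl fun j _ => by ring

/-- **polarised form** of the E-sector: the Gram matrix of `EF` is positive semidefinite. -/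
theorem EF_gram (hB : IsMUBs B) {ι : Type*} [Fintype ι] (al : ι → ℂ)
    (F : ι → Fin 6 × Fin 6 → ℂ) :
    0 ≤ (∑ i, ∑ j, star (al i) * al j * EF B (F i) (F j)).re := by
  rw [← EF_sum]; exact EF_nonneg hB _

/-- the operator `m |x⟩⟨y|`. -/
def ket (B : Fin n → M6) (m : ℂ) (x y : Fin n × Fin 6) (k : Fin 6 × Fin 6) : ℂ :=
  m * (vec B x k.1 * star (vec B y k.2))

theorem ev_ket (m : ℂ) (x y u : Fin n × Fin 6) :
    ev B u (ket B m x y) = m * (ip B u x * ip B y u) := by
  unfold ev ket
  have h : ∀ k : Fin 6 × Fin 6, star (vec B u k.1 * star (vec B u k.2)) *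
      (m * (vec B x k.1 * star (vec B y k.2)))
      = m * ((star (vec B u k.1) * vec B x k.1) * (star (vec B y k.2) * vec B u k.2)) := fun k => by
    rw [star_mul', star_star]; ring
  simp only [h]
  rw [← Finset.mul_sum, Fintype.sum_prod_type]
  unfold ip
  rw [Finset.sum_mul_sum]

theorem tr_ket (m : ℂ) (x y : Fin n × Fin 6) : tr (ket B m x y) = m * ip B y x := by
  rw [tr_eq]
  unfold ket ip
  rw [Finset.mul_sum]
  exact Finset.sum_congr rfl fun r _ => by ring

theorem hs_ket (m m' : ℂ) (x y x' y' : Fin n × Fin 6) :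
    ∑ k, star (ket B m x y k) * ket B m' x' y' k
      = star m * m' * (ip B x x' * ip B y' y) := by
  unfold ket
  have h : ∀ k : Fin 6 × Fin 6, star (m * (vec B x k.1 * star (vec B y k.2))) *
      (m' * (vec B x' k.1 * star (vec B y' k.2)))
      = star m * m' * ((star (vec B x k.1) * vec B x' k.1) *
        (star (vec B y' k.2) * vec B y k.2)) := fun k => by
    simp only [star_mul', star_star]; ring
  simp only [h]
  rw [← Finset.mul_sum, Fintype.sum_prod_type]
  unfold ip
  rw [Finset.sum_mul_sum]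

/-- the Gram entry of two operator valued flags `m |x⟩⟨y|`, `m' |x'⟩⟨y'|`. -/
theorem EF_ket (m m' : ℂ) (x y x' y' : Fin n × Fin 6) :
    EF B (ket B m x y) (ket B m' x' y')
      = star m * m' * (ip B x x' * ip B y' y
        - (∑ u, ip B x u * ip B u x' * (ip B y' u * ip B u y))
        + ((n : ℂ) - 1) / 6 * (ip B x y * ip B y' x')) := by
  unfold EF
  rw [hs_ket]
  simp only [ev_ket, tr_ket, star_mul', star_ip']
  rw [mul_add, mul_sub, Finset.mul_sum]
  congr 1
  · congr 1
    exact Finset.sum_congr rfl fun u _ => by ring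
  · ring

/-- **E-sector for flags** `m_i |x_i⟩⟨y_i|`. -/
theorem EF_flags (hB : IsMUBs B) {ι : Type*} [Fintype ι] (al m : ι → ℂ)
    (x y : ι → Fin n × Fin 6) :
    0 ≤ (∑ i, ∑ j, star (al i) * al j * (star (m i) * m j *
        (ip B (x i) (x j) * ip B (y j) (y i)
        - (∑ u, ip B (x i) u * ip B u (x j) * (ip B (y j) u * ip B u (y i)))
        + ((n : ℂ) - 1) / 6 * (ip B (x i) (y i) * ip B (y j) (x j))))).re := by
  have h := EF_gram hB al (fun i => ket B (m i) (x i) (y i))
  simp only [EF_ket] at h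
  exact h

/-- the same, summed over a finite set of labels with nonnegative weights. -/
theorem EF_flags_sum (hB : IsMUBs B) {ι Ω : Type*} [Fintype ι] [Fintype Ω] (al : ι → ℂ)
    (w : Ω → ℝ) (hw : ∀ ω, 0 ≤ w ω) (m : ι → Ω → ℂ) (x y : ι → Ω → Fin n × Fin 6) :
    0 ≤ (∑ i, ∑ j, star (al i) * al j * ∑ ω, (w ω : ℂ) * (star (m i ω) * m j ω *
        (ip B (x i ω) (x j ω) * ip B (y j ω) (y i ω)
        - (∑ u, ip B (x i ω) u * ip B u (x j ω) * (ip B (y j ω) u * ip B u (y i ω)))
        + ((n : ℂ) - 1) / 6 * (ip B (x i ω) (y i ω) * ip B (y j ω) (x j ω))))).re := by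
  set G : Ω → ι → ι → ℂ := fun ω i j => star (m i ω) * m j ω *
        (ip B (x i ω) (x j ω) * ip B (y j ω) (y i ω)
        - (∑ u, ip B (x i ω) u * ip B u (x j ω) * (ip B (y j ω) u * ip B u (y i ω)))
        + ((n : ℂ) - 1) / 6 * (ip B (x i ω) (y i ω) * ip B (y j ω) (x j ω))) with hG
  have e : (∑ i, ∑ j, star (al i) * al j * ∑ ω, (w ω : ℂ) * G ω i j)
      = ∑ ω, (w ω : ℂ) * ∑ i, ∑ j, star (al i) * al j * G ω i j := by
    simp only [Finset.mul_sum]
    rw [Finset.sum_comm]
    rw [show (∑ y, ∑ x, ∑ i, star (al x) * al y * ((w i : ℂ) * G i x y))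
      = ∑ y, ∑ i, ∑ x, star (al x) * al y * ((w i : ℂ) * G i x y) from
      Finset.sum_congr rfl fun _ _ => Finset.sum_comm]
    rw [Finset.sum_comm]
    refine Finset.sum_congr rfl fun ω _ => ?_
    rw [Finset.sum_comm]
    exact Finset.sum_congr rfl fun i _ => Finset.sum_congr rfl fun j _ => by ring
  have h2 : 0 ≤ (∑ i, ∑ j, star (al i) * al j * ∑ ω, (w ω : ℂ) * G ω i j).re := by
    rw [e, Complex.re_sum]
    refine Finset.sum_nonneg fun ω _ => ?_
    rw [Complex.re_ofReal_mul]
    exact mul_nonneg (hw ω) (EF_flags hB al (fun i => m i ω) (fun i => x i ω) (fun i => y i ω))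
  exact h2

/-- **vector valued flags** `m_i |x_i⟩`. -/
theorem V_flags {ι : Type*} [Fintype ι] (B : Fin n → M6) (al m : ι → ℂ) (x : ι → Fin n × Fin 6) :
    0 ≤ (∑ i, ∑ j, star (al i) * al j * (star (m i) * m j * ip B (x i) (x j))).re := by
  have e : (∑ i, ∑ j, star (al i) * al j * (star (m i) * m j * ip B (x i) (x j)))
      = ∑ r, star (∑ i, al i * (m i * vec B (x i) r)) * ∑ i, al i * (m i * vec B (x i) r) := by
    simp only [star_mul_sum]
    rw [Finset.sum_comm]
    rw [show (∑ r, ∑ i, ∑ j, star (al i) * al j * (star (m i * vec B (x i) r) *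
        (m j * vec B (x j) r)))
      = ∑ i, ∑ r, ∑ j, star (al i) * al j * (star (m i * vec B (x i) r) *
        (m j * vec B (x j) r)) from Finset.sum_comm]
    rw [Finset.sum_comm]
    refine Finset.sum_congr rfl fun i _ => ?_
    rw [Finset.sum_comm]
    refine Finset.sum_congr rfl fun j _ => ?_
    unfold ip
    rw [Finset.mul_sum, Finset.mul_sum]
    exact Finset.sum_congr rfl fun r _ => by rw [star_mul']; ring
  rw [e, Complex.re_sum]
  exact Finset.sum_nonneg fun k _ => re_star_mul_self _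

/-- **tensor valued flags** `m_i |x_i⟩ ⊗ |y_i⟩` (also `m_i |x_i⟩⟨y_i|`, by `star_ip'`); any
positive semidefinite coupling of two legs follows from this one by linearity. -/
theorem VV_flags {ι : Type*} [Fintype ι] (B : Fin n → M6) (al m : ι → ℂ)
    (x y : ι → Fin n × Fin 6) :
    0 ≤ (∑ i, ∑ j, star (al i) * al j * (star (m i) * m j *
      (ip B (x i) (x j) * ip B (y i) (y j)))).re := by
  have e : (∑ i, ∑ j, star (al i) * al j * (star (m i) * m j *
      (ip B (x i) (x j) * ip B (y i) (y j))))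
      = ∑ k : Fin 6 × Fin 6, star (∑ i, al i * (m i * (vec B (x i) k.1 * vec B (y i) k.2))) *
        ∑ i, al i * (m i * (vec B (x i) k.1 * vec B (y i) k.2)) := by
    simp only [star_mul_sum]
    rw [show (∑ k : Fin 6 × Fin 6, ∑ i, ∑ j, star (al i) * al j *
        (star (m i * (vec B (x i) k.1 * vec B (y i) k.2)) *
        (m j * (vec B (x j) k.1 * vec B (y j) k.2))))
      = ∑ i, ∑ k : Fin 6 × Fin 6, ∑ j, star (al i) * al j *
        (star (m i * (vec B (x i) k.1 * vec B (y i) k.2)) *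
        (m j * (vec B (x j) k.1 * vec B (y j) k.2))) from Finset.sum_comm]
    refine Finset.sum_congr rfl fun i _ => ?_
    rw [Finset.sum_comm]
    refine Finset.sum_congr rfl fun j _ => ?_
    have h : ip B (x i) (x j) * ip B (y i) (y j) = ∑ k : Fin 6 × Fin 6,
        (star (vec B (x i) k.1) * vec B (x j) k.1) * (star (vec B (y i) k.2) * vec B (y j) k.2) := by
      rw [Fintype.sum_prod_type]
      unfold ip
      rw [Finset.sum_mul_sum]
    rw [h, Finset.mul_sum, Finset.mul_sum]
    exact Finset.sum_congr rfl fun r _ => by simp only [star_mul']; ring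
  rw [e, Complex.re_sum]
  exact Finset.sum_nonneg fun k _ => re_star_mul_self _

/-- **vector valued flags**, summed over labels with nonnegative weights. -/
theorem V_flags_sum {ι Ω : Type*} [Fintype ι] [Fintype Ω] (B : Fin n → M6) (al : ι → ℂ)
    (w : Ω → ℝ) (hw : ∀ ω, 0 ≤ w ω) (m : ι → Ω → ℂ) (x : ι → Ω → Fin n × Fin 6) :
    0 ≤ (∑ i, ∑ j, star (al i) * al j * ∑ ω, (w ω : ℂ) *
      (star (m i ω) * m j ω * ip B (x i ω) (x j ω))).re := by
  have e : (∑ i, ∑ j, star (al i) * al j * ∑ ω, (w ω : ℂ) *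
      (star (m i ω) * m j ω * ip B (x i ω) (x j ω)))
      = ∑ ω, (w ω : ℂ) * ∑ i, ∑ j, star (al i) * al j *
        (star (m i ω) * m j ω * ip B (x i ω) (x j ω)) := by
    simp only [Finset.mul_sum]
    rw [Finset.sum_comm]
    rw [show (∑ y, ∑ z, ∑ i, star (al z) * al y * ((w i : ℂ) *
        (star (m z i) * m y i * ip B (x z i) (x y i))))
      = ∑ y, ∑ i, ∑ z, star (al z) * al y * ((w i : ℂ) *
        (star (m z i) * m y i * ip B (x z i) (x y i))) from
      Finset.sum_congr rfl fun _ _ => Finset.sum_comm]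
    rw [Finset.sum_comm]
    refine Finset.sum_congr rfl fun ω _ => ?_
    rw [Finset.sum_comm]
    exact Finset.sum_congr rfl fun i _ => Finset.sum_congr rfl fun j _ => by ring
  rw [e, Complex.re_sum]
  refine Finset.sum_nonneg fun ω _ => ?_
  rw [Complex.re_ofReal_mul]
  exact mul_nonneg (hw ω) (V_flags B al (fun i => m i ω) (fun i => x i ω))

/-- a double sum over pairs `(flag, position of the internal vertices)`. -/
theorem sum_pairs {ι τ Ω : Type*} [Fintype ι] [Fintype τ] [Fintype Ω] (al : ι → ℂ) (w : Ω → ℝ)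
    (G : Ω → ι × τ → ι × τ → ℂ) :
    (∑ p : ι × τ, ∑ q : ι × τ, star (al p.1) * al q.1 * ∑ ω, (w ω : ℂ) * G ω p q)
      = ∑ i, ∑ j, star (al i) * al j * ∑ ω, (w ω : ℂ) * ∑ s, ∑ t, G ω (i, s) (j, t) := by
  rw [Fintype.sum_prod_type]
  refine Finset.sum_congr rfl fun i _ => ?_
  simp only [Fintype.sum_prod_type]
  rw [Finset.sum_comm]
  refine Finset.sum_congr rfl fun j _ => ?_
  simp only [Finset.mul_sum]
  rw [show (∑ y, ∑ x, ∑ i_1, star (al i) * al j * ((w i_1 : ℂ) * G i_1 (i, y) (j, x)))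
    = ∑ y, ∑ i_1, ∑ x, star (al i) * al j * ((w i_1 : ℂ) * G i_1 (i, y) (j, x)) from
    Finset.sum_congr rfl fun _ _ => Finset.sum_comm]
  rw [Finset.sum_comm]

/-- **E-sector for flags with internal vertices**: `F_i(ω) = ∑_t m_i(ω,t) |x_i(ω,t)⟩⟨y_i(ω,t)|`,
`t` = position of the internal vertices, `ω` = position of the labels (with weights `w ω ≥ 0`;
distinct labels of one basis: weight zero if two of them coincide). -/
theorem EF_flags_full (hB : IsMUBs B) {ι Ω τ : Type*} [Fintype ι] [Fintype Ω] [Fintype τ]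
    (al : ι → ℂ) (w : Ω → ℝ) (hw : ∀ ω, 0 ≤ w ω) (m : ι → Ω → τ → ℂ)
    (x y : ι → Ω → τ → Fin n × Fin 6) :
    0 ≤ (∑ i, ∑ j, star (al i) * al j * ∑ ω, (w ω : ℂ) * ∑ s, ∑ t,
        (star (m i ω s) * m j ω t *
        (ip B (x i ω s) (x j ω t) * ip B (y j ω t) (y i ω s)
        - (∑ u, ip B (x i ω s) u * ip B u (x j ω t) * (ip B (y j ω t) u * ip B u (y i ω s)))
        + ((n : ℂ) - 1) / 6 * (ip B (x i ω s) (y i ω s) * ip B (y j ω t) (x j ω t))))).re := by
  have h := EF_flags_sum hB (fun p : ι × τ => al p.1) w hw (fun p ω => m p.1 ω p.2)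
    (fun p ω => x p.1 ω p.2) (fun p ω => y p.1 ω p.2)
  rw [sum_pairs al w (fun ω p q => star (m p.1 ω p.2) * m q.1 ω q.2 *
        (ip B (x p.1 ω p.2) (x q.1 ω q.2) * ip B (y q.1 ω q.2) (y p.1 ω p.2)
        - (∑ u, ip B (x p.1 ω p.2) u * ip B u (x q.1 ω q.2) *
          (ip B (y q.1 ω q.2) u * ip B u (y p.1 ω p.2)))
        + ((n : ℂ) - 1) / 6 * (ip B (x p.1 ω p.2) (y p.1 ω p.2) *
          ip B (y q.1 ω q.2) (x q.1 ω q.2))))] at h
  exact h

/-- **kets with internal vertices**: `F_i(ω) = ∑_t m_i(ω,t) |x_i(ω,t)⟩`. -/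
theorem V_flags_full {ι Ω τ : Type*} [Fintype ι] [Fintype Ω] [Fintype τ] (B : Fin n → M6)
    (al : ι → ℂ) (w : Ω → ℝ) (hw : ∀ ω, 0 ≤ w ω) (m : ι → Ω → τ → ℂ)
    (x : ι → Ω → τ → Fin n × Fin 6) :
    0 ≤ (∑ i, ∑ j, star (al i) * al j * ∑ ω, (w ω : ℂ) * ∑ s, ∑ t,
        (star (m i ω s) * m j ω t * ip B (x i ω s) (x j ω t))).re := by
  have h := V_flags_sum B (fun p : ι × τ => al p.1) w hw (fun p ω => m p.1 ω p.2)
    (fun p ω => x p.1 ω p.2)
  rw [sum_pairs al w (fun ω p q => star (m p.1 ω p.2) * m q.1 ω q.2 *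
        ip B (x p.1 ω p.2) (x q.1 ω q.2))] at h
  exact h

/-- five bases: the coefficient of the trace term is `4/6`. -/
theorem sum_ev_le_five {B : Fin 5 → M6} (hB : IsMUBs B) (X : Fin 6 × Fin 6 → ℂ) :
    ∑ u : Fin 5 × Fin 6, Complex.normSq (ev B u X)
      ≤ (∑ k, Complex.normSq (X k)) + 2 / 3 * Complex.normSq (tr X) := by
  have h := sum_ev_le hB X
  norm_num at h ⊢
  exact h

end Vale.Agent.P355.H790
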